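import Vale.Agent.P286EU.Ud

/-!
# Vector fields on the chart data of the elliptic curve
-/

namespace Vale.Agent.P286EU

open CategoryTheory TrivSqZeroExt Polynomial
open Vale.Agent.P286ET Vale.Agent.P286E

noncomputable section

section General

variable {I : Type} [SmallCategory I] {D : CD I} (V : VF D)

/-- The logarithmic derivative of `c`. -/
def VF.lc {i j : I} (α : i ⟶ j) : D.C j := dlg (V.pd j) (D.c_unit α)

theorem VF.mul_lc {i j : I} (α : i ⟶ j) : D.c α * V.lc α = V.pd j (D.c α) := mul_dlg _ _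

theorem VF.lc_zero {i j : I} (α : i ⟶ j) (h : V.pd j (D.c α) = 0) : V.lc α = 0 :=
  dlg_eq _ _ (by rw [h, mul_zero])

theorem VF.lc_comp {i j k : I} (α : i ⟶ j) (β : j ⟶ k) :
    V.lc (α ≫ β) = D.c β * D.κ β (V.lc α) + V.lc β :=
  dlg_eq _ _ (by
    rw [D.c_comp, Derivation.leibniz, V.pd_κ, ← V.mul_lc α, ← V.mul_lc β, map_mul, smul_eq_mul,
      smul_eq_mul]
    ring)

/-- The cocycle `lam r'/r + k c'/c`. -/
def VF.lz (lam : ℂ) (k : ℤ) {i j : I} (α : i ⟶ j) : D.C j := lam • V.lr α + k • V.lc α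

/-- The diagram of double covers, with the twist `t (lam r'/r + k c'/c)`. -/
def VF.uk (lam : ℂ) (k : ℤ) : UDat I :=
  { V.ud lam with
    eta := fun {_ j} α => Dc.of (D.f j) (V.lz lam k α) * Dc.t (D.f j)
    eta_id := fun i => by
      change Dc.of (D.f i) _ * Dc.t (D.f i) = 0
      rw [VF.lz, V.lr_one _ (D.r_id i), V.lc_zero _ (by rw [D.c_id, Derivation.map_one_eq_zero]),
        smul_zero, smul_zero, add_zero, map_zero, zero_mul]
    eta_comp := fun {i j l} a b => by
      change Dc.of (D.f l) _ * Dc.t (D.f l) =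
        dcM (D.κ b) (D.c b) (D.κ_f b) (Dc.of (D.f j) _ * Dc.t (D.f j)) + Dc.of (D.f l) _ * Dc.t (D.f l)
      simp only [VF.lz, V.lr_comp, V.lc_comp, map_add, map_mul, dcM_of, dcM_t, Algebra.smul_def,
        AlgHom.commutes, eq_intCast, map_intCast]
      ring
    w_eta := fun {i j} a => by
      change dcW (D.f j) (Dc.of (D.f j) _ * Dc.t (D.f j)) = - (Dc.of (D.f j) _ * Dc.t (D.f j))
      rw [map_mul, dcW_of, dcW_t, mul_neg] }

end General

section Loc

variable {A : Type} [CommRing A] [Algebra ℂ A] (M : Submonoid A) (B : Type) [CommRing B]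
  [Algebra ℂ B] [Algebra A B] [IsScalarTower ℂ A B] [IsLocalization M B] (p : Derivation ℂ A A)

/-- The first order deformation of the structure map. -/
def locPhi : A →ₐ[ℂ] TrivSqZeroExt B B where
  toFun a := inl (algebraMap A B a) + inr (algebraMap A B (p a))
  map_one' := by simp
  map_zero' := by simp
  map_add' a b := by
    refine TrivSqZeroExt.ext ?_ ?_ <;> simp [Algebra.smul_def]
  map_mul' a b := by
    refine TrivSqZeroExt.ext ?_ ?_
    · simp
    · simp only [snd_mul, fst_add, fst_inl, fst_inr, snd_add, snd_inl, snd_inr, add_zero, zero_add,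
        op_smul_eq_smul, smul_eq_mul, Derivation.leibniz, map_add, map_mul]
  commutes' c := by
    refine TrivSqZeroExt.ext ?_ ?_
    · simp [algebraMap_eq_inl', ← IsScalarTower.algebraMap_apply]
    · simp [algebraMap_eq_inl']

/-- The first order deformation of the identity. -/
def locPsi : B →ₐ[ℂ] TrivSqZeroExt B B :=
  IsLocalization.liftAlgHom (M := M) (f := locPhi B p) fun y => by
    have h : (locPhi B p y).fst = algebraMap A B y := add_zero _
    rw [isUnit_iff_isUnit_fst, h]
    exact IsLocalization.map_units B y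

theorem locPsi_of (a : A) : locPsi M B p (algebraMap A B a) = locPhi B p a := by
  simp [locPsi]

theorem locPsi_fst (x : B) : (locPsi M B p x).fst = x := by
  have h : ((fstHom ℂ B B).comp (locPsi M B p)) = AlgHom.id ℂ B :=
    AlgHom.coe_ringHom_injective (IsLocalization.ringHom_ext M (RingHom.ext fun a =>
      (congrArg fst (locPsi_of M B p a)).trans (add_zero _)))
  exact AlgHom.congr_fun h x

/-- The extension of a derivation to a localisation. -/
def locD : Derivation ℂ B B := secDer (locPsi M B p) (locPsi_fst M B p)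

theorem locD_of (a : A) : locD M B p (algebraMap A B a) = algebraMap A B (p a) :=
  (congrArg snd (locPsi_of M B p a)).trans (zero_add _)

end Loc

/-- Vector fields on two charts and their intersection, which is a localisation of both. -/
structure SV (S : Star) where
  pa : Derivation ℂ S.Ca S.Ca
  pb : Derivation ℂ S.Cb S.Cb
  pn : Derivation ℂ S.Cn S.Cn
  pn_a : ∀ z, pn (S.ka z) = S.ka (pa z)
  pn_b : ∀ z, pn (S.kb z) = S.c * S.kb (pb z)
  sa : S.Ca
  sb : S.Cb
  away_a : IsAway S.ka sa
  away_b : IsAway S.kb sb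

namespace SV

variable {S : Star} (W : SV S)

/-- The vector fields. -/
def p1 : ∀ i, Derivation ℂ (S.C i) (S.C i)
  | .a => W.pa
  | .b => W.pb
  | .n => W.pn

/-- The vector fields on the first datum. -/
def V1 : VF S.cd where
  pd := W.p1
  pd_κ {i j} α z := by
    rcases leOfHom α with rfl | rfl <;> cases i
    · exact (one_mul (W.pa z)).symm
    · exact (one_mul (W.pb z)).symm
    · exact (one_mul (W.pn z)).symm
    · exact (W.pn_a z).trans (one_mul _).symm
    · exact W.pn_b z
    · exact (one_mul (W.pn z)).symm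

/-- The vector fields. -/
def p2 : ∀ i, Derivation ℂ (S.C2 i) (S.C2 i)
  | .a => dcD S.fa W.pa
  | .b => W.pb
  | .n => dcD (S.ka S.fa) W.pn

theorem dcD_map {A B : Type} [CommRing A] [Algebra ℂ A] [CommRing B] [Algebra ℂ B] (f : A)
    (φ : A →ₐ[ℂ] B) (p : Derivation ℂ A A) (q : Derivation ℂ B B) (h : ∀ z, q (φ z) = φ (p z))
    (ε : ℤˣ) (z : Dc f) :
    dcD (φ f) q (Dc.map f φ ε z) = ((ε : ℤ) : Dc (φ f)) * Dc.map f φ ε (dcD f p z) := by
  have h1 := sgn_sq (B := Dc (φ f)) ε
  induction z using dc_ind with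
  | h α β =>
    simp only [map_add, map_mul, map_smul, Derivation.leibniz, smul_eq_mul, Dc.map_of, Dc.map_t,
      dcD_of, dcD_t, h, Derivation.map_intCast]
    linear_combination (- Dc.t (φ f) * Dc.of (φ f) (φ (p α)) -
      ((ε : ℤ) : Dc (φ f)) * Dc.t (φ f) ^ 2 * Dc.of (φ f) (φ (p β))) * h1

theorem dcD_bn (z : S.Cb) : dcD (S.ka S.fa) W.pn (Dc.of (S.ka S.fa) (S.kb z)) =
    Dc.of (S.ka S.fa) S.c * Dc.t (S.ka S.fa) * Dc.of (S.ka S.fa) (S.kb (W.pb z)) := by
  rw [dcD_of, W.pn_b, map_mul]
  ring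

/-- The vector fields on the second datum. -/
def V2 : VF S.cd2 where
  pd := W.p2
  pd_κ {i j} (α : Ar i j) z := by
    cases α with
    | aa ε => exact dcD_map S.fa (AlgHom.id ℂ _) W.pa W.pa (fun _ => rfl) ε z
    | an ε => exact dcD_map S.fa S.ka W.pa W.pn W.pn_a ε z
    | nn ε => exact dcD_map (S.ka S.fa) (AlgHom.id ℂ _) W.pn W.pn (fun _ => rfl) ε z
    | bb => exact (one_mul (W.pb z)).symm
    | bn => exact W.dcD_bn z

end SV

/-! ### The elliptic curve -/

theorem away_of_loc {A B : Type} [CommRing A] [Algebra ℂ A] [CommRing B] [Algebra ℂ B] [Algebra A B]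
    [IsScalarTower ℂ A B] (s : A) [IsLocalization.Away s B] :
    IsAway (IsScalarTower.toAlgHom ℂ A B) s where
  unit := IsLocalization.Away.algebraMap_isUnit s
  surj y := by
    obtain ⟨n, x, e⟩ := IsLocalization.Away.surj s y
    exact ⟨n, x, (mul_comm _ _).trans e⟩
  ker x hx := by
    obtain ⟨⟨_, n, rfl⟩, e⟩ := (IsLocalization.map_eq_zero_iff (Submonoid.powers s) B x).1 hx
    exact ⟨n, e⟩

variable {E : Ell} (e : Rt E)

/-- The vector field `d/dX` on the intersection. -/
def pnE (E : Ell) : Derivation ℂ E.Cn E.Cn := locD (Submonoid.powers E.f) E.Cn derivative'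

/-- The vector field `d/dX` on the second chart. -/
def pbE : Derivation ℂ (Localization.Away e.g) (Localization.Away e.g) :=
  locD (Submonoid.powers e.g) _ derivative'

theorem pnE_ka (E : Ell) (z : ℂ[X]) : pnE E (E.ka z) = E.ka (derivative z) := locD_of _ _ _ z

theorem pbE_of (z : ℂ[X]) : pbE e (algebraMap ℂ[X] _ z) = algebraMap ℂ[X] _ (derivative z) :=
  locD_of _ _ _ z

theorem pnE_x : pnE E (E.ka (X - C e.e)) = 1 := by
  rw [pnE_ka, derivative_X_sub_C, map_one]

theorem pnE_w : pnE E e.w = - e.w ^ 2 := by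
  have h := congrArg (pnE E) e.mul_w
  rw [Derivation.leibniz, pnE_x, Derivation.map_one_eq_zero, smul_eq_mul, smul_eq_mul] at h
  linear_combination e.w * h - pnE E e.w * e.mul_w

theorem pnE_u : pnE E e.u = -(algebraMap ℂ E.Cn e.d * e.w ^ 2) := by
  rw [Rt.u, map_add, Derivation.map_algebraMap, Derivation.leibniz, Derivation.map_algebraMap,
    pnE_w, smul_eq_mul, smul_zero]
  ring

theorem der_aeval {B : Type} [CommRing B] [Algebra ℂ B] (q : Derivation ℂ B B) (u : B) (z : ℂ[X]) :
    q (aeval u z) = q u * aeval u (derivative z) := by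
  induction z using Polynomial.induction_on with
  | C a => simp
  | add p r hp hr => rw [map_add, map_add, hp, hr, derivative_add, map_add, mul_add]
  | monomial n a h =>
    rw [pow_succ, ← mul_assoc, map_mul, Derivation.leibniz, h, derivative_mul (f := C a * X ^ n),
      derivative_X]
    simp only [map_add, map_mul, aeval_X, smul_eq_mul, mul_one]
    ring

theorem pnE_kb (z : Localization.Away e.g) :
    pnE E (e.kb z) = -(algebraMap ℂ E.Cn e.d * e.w ^ 2) * e.kb (pbE e z) := by
  obtain ⟨⟨p, s⟩, h⟩ := IsLocalization.surj (Submonoid.powers e.g) z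
  have h0 : ∀ p : ℂ[X], pnE E (e.kb (algebraMap ℂ[X] _ p)) =
      -(algebraMap ℂ E.Cn e.d * e.w ^ 2) * e.kb (pbE e (algebraMap ℂ[X] _ p)) := fun p => by
    rw [pbE_of, e.kb_of, e.kb_of, der_aeval, pnE_u]
  have h1 := h0 p
  rw [← h, map_mul, Derivation.leibniz, Derivation.leibniz, h0, smul_eq_mul, smul_eq_mul,
    smul_eq_mul, smul_eq_mul, map_add, map_mul, map_mul] at h1
  refine ((IsLocalization.map_units (Localization.Away e.g) s).map e.kb).mul_left_cancel ?_
  linear_combination h1

/-- The translation by the point of order two. -/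
def thE : E.Cn →ₐ[ℂ] E.Cn :=
  IsLocalization.liftAlgHom (M := Submonoid.powers E.f) (f := aeval e.u) (by
    rintro ⟨_, n, rfl⟩
    simp only [map_pow]
    rw [← e.kb_of]
    exact (((ES e).kb_f.symm ▸ ((ES e).c_unit.pow 2).mul (ES e).f_unit :
      IsUnit ((ES e).kb (ES e).fb))).pow n)

theorem thE_ka (p : ℂ[X]) : thE e (E.ka p) = aeval e.u p := by
  simp [thE, Ell.ka]

theorem thE_x : thE e (E.ka (X - C e.e)) = algebraMap ℂ E.Cn e.d * e.w := by
  rw [thE_ka, map_sub, aeval_X, aeval_C, Rt.u, add_sub_cancel_left]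

theorem thE_thE (z : E.Cn) : thE e (thE e z) = z := by
  have h1 := congrArg (thE e) e.mul_w
  rw [map_mul, map_one, thE_x] at h1
  have h2 : E.ka (X - C e.e) = E.ka X - algebraMap ℂ E.Cn e.e := by
    rw [map_sub]
    exact congrArg _ (E.ka.commutes e.e)
  have h3 : ((thE e).comp (thE e)).comp E.ka = E.ka := Polynomial.algHom_ext (by
    rw [AlgHom.comp_apply, AlgHom.comp_apply, thE_ka, aeval_X, Rt.u, map_add, map_mul,
      AlgHom.commutes, AlgHom.commutes]
    have h4 := e.mul_w
    rw [h2] at h4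
    linear_combination (E.ka X - algebraMap ℂ E.Cn e.e) * h1 -
      (algebraMap ℂ E.Cn e.d * thE e e.w) * h4)
  have h : (thE e).comp (thE e) = AlgHom.id ℂ _ :=
    AlgHom.coe_ringHom_injective (IsLocalization.ringHom_ext (Submonoid.powers E.f)
      (RingHom.ext fun a => AlgHom.congr_fun h3 a))
  exact AlgHom.congr_fun h z

theorem f_ne (E : Ell) : E.f ≠ 0 := fun h => by
  have := congrArg (fun p : ℂ[X] => p.coeff 3) h
  simp [Ell.f] at this

theorem th_kb (p : ℂ[X]) : thE e (e.kb (algebraMap ℂ[X] _ p)) = E.ka p := by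
  rw [e.kb_of, ← thE_ka, thE_thE]

theorem kb_inj : Function.Injective e.kb := by
  rw [injective_iff_map_eq_zero]
  intro z hz
  obtain ⟨⟨p, s⟩, h⟩ := IsLocalization.surj (Submonoid.powers e.g) z
  have h1 := th_kb e p
  rw [← h, map_mul, hz, zero_mul, map_zero] at h1
  have h2 : p = 0 := IsLocalization.injective E.Cn
    (powers_le_nonZeroDivisors_of_noZeroDivisors (f_ne E)) (h1.symm.trans (map_zero _).symm)
  rw [h2, map_zero] at h
  exact (IsLocalization.map_units (Localization.Away e.g) s).mul_left_eq_zero.1 h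

theorem away_kb : IsAway e.kb (algebraMap ℂ[X] _ (X - C e.e)) where
  unit := by
    rw [e.kb_of, ← thE_ka]
    exact (IsUnit.of_mul_eq_one _ e.mul_w).map _
  surj y := by
    obtain ⟨n, p, h⟩ := IsLocalization.Away.surj E.f (thE e y)
    refine ⟨n, algebraMap ℂ[X] _ p * IsLocalization.Away.invSelf e.g ^ n, ?_⟩
    have h1 := congrArg (thE e) h
    have h2 := congrArg (fun z => e.kb z ^ n) (IsLocalization.Away.mul_invSelf
      (S := Localization.Away e.g) e.g)
    rw [map_mul, thE_thE, map_pow] at h1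
    change y * thE e (E.ka E.f) ^ n = thE e (E.ka p) at h1
    have h3 : aeval e.u E.f = aeval e.u (X - C e.e) * aeval e.u e.g := by rw [← map_mul, ← e.fac]
    rw [thE_ka, thE_ka, h3, ← e.kb_of, ← e.kb_of, ← e.kb_of, mul_pow] at h1
    simp only [map_mul, map_one, one_pow, mul_pow] at h2
    rw [map_mul, map_pow, ← h1]
    linear_combination (- y * e.kb (algebraMap ℂ[X] _ (X - C e.e)) ^ n) * h2
  ker x hx := ⟨0, by rw [kb_inj e (hx.trans (map_zero _).symm), mul_zero]⟩

/-- The vector fields `d/dX`. -/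
def esv : SV (ES e) where
  pa := derivative'
  pb := pbE e
  pn := pnE E
  pn_a := pnE_ka E
  pn_b := pnE_kb e
  sa := E.f
  sb := algebraMap ℂ[X] (Localization.Away e.g) (X - C e.e)
  away_a := away_of_loc (B := E.Cn) E.f
  away_b := away_kb e

/-- The vector fields on the datum for `SL_2`. -/
def V1 : VF (D1 e) := (esv e).V1

/-- The vector fields on the datum for `SO_3`. -/
def V2 : VF (D2 e) := (esv e).V2

end

end Vale.Agent.P286EU
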