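import Vale.Agent.P286EU.Mid
import Vale.Agent.P286ET.Fmt

/-!
# The torus side of the middle statement, without hypotheses
-/

namespace Vale.Agent.P286EU

open Vale.Agent.P286ET Vale.Agent.P286E

theorem midT' (E : Ell) (e : Rt E) (lam lam' : ℂ) (k k' m m' : ℤ)
    (hm : (2 * lam + m) * (2 * lam' + m') = -1) :
    EQV (um ((V1 e).uk lam k)) (um ((V2 e).uk lam' k')) := midT fmt E e lam lam' k k' m m' hm

end Vale.Agent.P286EU
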