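import Vale.Agent.P286EG.Ag3

/-!
# Derived base change along a localisation of a finite free algebra, in terms of elements
-/

namespace Vale.Agent.P286EU

open Vale.Agent.P286 Vale.Agent.P286.H847 Vale.Agent.P286EG TensorProduct

noncomputable section

variable {A B : Type} [CommRing A] [CommRing B]

/-- The map `v` is a localisation on cohomology. -/
def LocH {K : MCx A} {L : MCx B} (v : AH K L) (σ : A) (τ : B) : Prop :=
  ∀ i j k, i + 1 = j → j + 1 = k →
    (∀ x, K.d j k x = 0 → (∃ y, L.d i j y = v.f j x) →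
      ∃ (n : ℕ) (x' : K.X i), K.d i j x' = σ ^ n • x) ∧
    (∀ y, L.d j k y = 0 → ∃ (n : ℕ) (x : K.X j), K.d j k x = 0 ∧
      ∃ y', L.d i j y' = τ ^ n • y - v.f j x)

theorem pow_bij {P : Type} [AddCommGroup P] [Module A P] {σ : A}
    (h : Function.Bijective fun x : P => σ • x) (n : ℕ) :
    Function.Bijective fun x : P => σ ^ n • x := by
  induction n with
  | zero =>
    simp only [pow_zero, one_smul]
    exact Function.bijective_id
  | succ n ih =>
    simp only [pow_succ, mul_smul]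
    exact ih.comp h

theorem pow_semi {P Q : Type} [AddCommGroup P] [Module A P] [AddCommGroup Q] [Module B Q]
    {u : P → Q} {σ : A} {τ : B} (h : ∀ x, u (σ • x) = τ • u x) (n : ℕ) (x : P) :
    u (σ ^ n • x) = τ ^ n • u x := by
  induction n with
  | zero => rw [pow_zero, pow_zero, one_smul, one_smul]
  | succ n ih => rw [pow_succ', pow_succ', mul_smul, mul_smul, h, ih]

theorem loc_iff {K C : MCx A} {L : MCx B} (E : AH K C) (u : AH C L) (σ : A) (τ : B)
    (hE : ∀ i x, E.f i (σ • x) = σ • E.f i x) (hu : ∀ i x, u.f i (σ • x) = τ • u.f i x)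
    (bC : ∀ i, Function.Bijective fun x : C.X i => σ • x)
    (bL : ∀ i, Function.Bijective fun x : L.X i => τ • x)
    (sE : ∀ i z, ∃ (n : ℕ) (x : K.X i), σ ^ n • z = E.f i x)
    (kE : ∀ i x, E.f i x = 0 → ∃ n : ℕ, σ ^ n • x = 0) : u.Qis ↔ LocH (u.comp E) σ τ := by
  constructor
  · intro h i j k hi hj
    obtain ⟨h1, h2⟩ := h i j k hi hj
    refine ⟨fun x hx hy => ?_, fun y hy => ?_⟩
    · obtain ⟨z, e⟩ := h1 (E.f j x) (by rw [← E.comm j k hj, hx, map_zero]) hy
      obtain ⟨n, x', e'⟩ := sE i z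
      obtain ⟨m, e''⟩ := kE j (K.d i j x' - σ ^ n • x) (by
        rw [map_sub, E.comm i j hi, ← e', map_smul, e, pow_semi (hE j), sub_self])
      exact ⟨m + n, σ ^ m • x', by
        rw [map_smul, pow_add, mul_smul, ← sub_eq_zero, ← smul_sub, e'']⟩
    · obtain ⟨z, hz, y', e⟩ := h2 y hy
      obtain ⟨n, x, e'⟩ := sE j z
      obtain ⟨m, e''⟩ := kE k (K.d j k x) (by
        rw [E.comm j k hj, ← e', map_smul, hz, smul_zero])
      refine ⟨m + n, σ ^ m • x, by rw [map_smul, e''], τ ^ (m + n) • y', ?_⟩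
      change _ = _ - u.f j (E.f j (σ ^ m • x))
      rw [map_smul, e, pow_semi (hE j), ← e', smul_smul, ← pow_add, pow_semi (hu j), smul_sub]
  · intro h i j k hi hj
    obtain ⟨h1, h2⟩ := h i j k hi hj
    refine ⟨?_, fun y hy => ?_⟩
    · rintro z hz ⟨y, e⟩
      obtain ⟨n, x, e'⟩ := sE j z
      obtain ⟨m, e''⟩ := kE k (K.d j k x) (by
        rw [E.comm j k hj, ← e', map_smul, hz, smul_zero])
      obtain ⟨p, x', e3⟩ := h1 (σ ^ m • x) (by rw [map_smul, e'']) ⟨τ ^ (m + n) • y, by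
        change _ = u.f j (E.f j (σ ^ m • x))
        rw [map_smul, e, pow_semi (hE j), ← e', smul_smul, ← pow_add, pow_semi (hu j)]⟩
      obtain ⟨z', e4⟩ := (pow_bij (bC i) (p + (m + n))).2 (E.f i x')
      refine ⟨z', (pow_bij (bC j) (p + (m + n))).1 ?_⟩
      change σ ^ (p + (m + n)) • _ = σ ^ (p + (m + n)) • _
      change σ ^ (p + (m + n)) • _ = _ at e4
      rw [← map_smul, e4, ← E.comm i j hi, e3, pow_semi (hE j), pow_semi (hE j), ← e', smul_smul,
        smul_smul, ← pow_add, ← pow_add, add_assoc]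
    · obtain ⟨n, x, hx, y', e⟩ := h2 y hy
      obtain ⟨z, e1⟩ := (pow_bij (bC j) n).2 (E.f j x)
      obtain ⟨y'', e2⟩ := (pow_bij (bL i) n).2 y'
      change σ ^ n • _ = _ at e1
      change τ ^ n • _ = _ at e2
      refine ⟨z, (pow_bij (bC k) n).1 ?_, y'', (pow_bij (bL j) n).1 ?_⟩
      · change σ ^ n • _ = σ ^ n • _
        rw [← map_smul, e1, ← E.comm j k hj, hx, map_zero, smul_zero]
      · change τ ^ n • _ = τ ^ n • _
        rw [← map_smul, e2, e, smul_sub, ← pow_semi (hu j), e1]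
        rfl

/-- The map `w` is a localisation on cohomology. -/
def LocA (K : AG A) (N : AG B) (w : K.G.V → N.G.V) (σ : A) (τ : B) : Prop :=
  ∀ m : ℤ,
    (∀ x ∈ K.G.gr m, K.G.d x = 0 → (∃ y ∈ N.G.gr (m - 1), N.G.d y = w x) →
      ∃ n : ℕ, ∃ x' ∈ K.G.gr (m - 1), K.G.d x' = K.fn (σ ^ n) x) ∧
    (∀ y ∈ N.G.gr m, N.G.d y = 0 →
      ∃ n : ℕ, ∃ x ∈ K.G.gr m, K.G.d x = 0 ∧
        ∃ y' ∈ N.G.gr (m - 1), N.G.d y' = N.fn (τ ^ n) y - w x)

theorem locH_iff {M : AG A} {N : AG B} (v : AH M.mc N.mc) (w : M.G.V → N.G.V)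
    (hw : ∀ i x, N.val i (v.f i x) = w (M.val i x)) (σ : A) (τ : B) :
    LocH v σ τ ↔ LocA M N w σ τ := by
  constructor
  · intro h m
    obtain ⟨h1, h2⟩ := h (m - 1) m (m + 1) (by ring) rfl
    refine ⟨?_, fun y hy hd => ?_⟩
    · rintro x hx hd ⟨y, hy, e⟩
      obtain ⟨n, x', e'⟩ := h1 (M.el x hx) (M.val_inj (by rw [M.val_d rfl, map_zero]; exact hd))
        ⟨N.el y hy, N.val_inj (by rw [N.val_d (by ring), hw]; exact e)⟩
      exact ⟨n, _, M.val_mem x', (M.val_d (by ring) x').symm.trans (congrArg (M.val m) e')⟩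
    · obtain ⟨n, x, hx, y', e⟩ := h2 (N.el y hy)
        (N.val_inj (by rw [N.val_d rfl, map_zero]; exact hd))
      exact ⟨n, _, M.val_mem x, (M.val_d rfl x).symm.trans (congrArg (M.val _) hx), _,
        N.val_mem y', (N.val_d (by ring) y').symm.trans ((congrArg (N.val m) e).trans (by
          rw [map_sub, hw]; rfl))⟩
  · intro h i j k hi hj
    obtain rfl : i = j - 1 := by omega
    refine ⟨?_, fun y hy => ?_⟩
    · rintro x hx ⟨y, e⟩
      obtain ⟨n, x', hx', e'⟩ := (h j).1 _ (M.val_mem x)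
        ((M.val_d hj x).symm.trans (congrArg (M.val k) hx))
        ⟨_, N.val_mem y, (N.val_d hi y).symm.trans ((congrArg (N.val j) e).trans (hw _ _))⟩
      exact ⟨n, M.el x' hx', M.val_inj ((M.val_d hi _).trans e')⟩
    · obtain ⟨n, x, hx, hd, y', hy', e⟩ := (h j).2 _ (N.val_mem y)
        ((N.val_d hj y).symm.trans (congrArg (N.val k) hy))
      exact ⟨n, M.el x hx, M.val_inj ((M.val_d hj _).trans hd), N.el y' hy',
        N.val_inj ((N.val_d hi _).trans (e.trans (by rw [map_sub, hw]; rfl)))⟩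

/-- The algebra `B` is the localisation away from `σ` of the free module with the basis `b`. -/
structure FrL (f : A →+* B) (σ : A) {ι : Type} [Fintype ι] (b : ι → B) : Prop where
  unit : IsUnit (f σ)
  surj : ∀ y : B, ∃ (n : ℕ) (x : ι → A), f σ ^ n * y = ∑ l, f (x l) * b l
  ker : ∀ x : ι → A, ∑ l, f (x l) * b l = 0 → ∃ n : ℕ, ∀ l, σ ^ n * x l = 0

variable {f : A →+* B} {σ : A} {ι : Type} [Fintype ι] {b : ι → B}

theorem FrL.loc (h : FrL f σ b) : letI := f.toAlgebra
    IsLocalizedModule (Submonoid.powers σ) (Fintype.linearCombination A b) := by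
  let _ := f.toAlgebra
  refine ⟨?_, fun y => ?_, fun {x x'} e => ?_⟩
  · rintro ⟨_, n, rfl⟩
    rw [Module.End.isUnit_iff]
    have h1 := (h.unit.pow n).smul_bijective (β := B)
    rw [← map_pow] at h1
    exact h1
  · obtain ⟨n, x, e⟩ := h.surj y
    rw [← map_pow] at e
    exact ⟨(x, ⟨_, n, rfl⟩), e⟩
  · obtain ⟨n, e'⟩ := h.ker (x - x') (by
      have h1 := sub_eq_zero.2 e
      rw [← map_sub] at h1
      exact h1)
    exact ⟨⟨_, n, rfl⟩, funext fun l => sub_eq_zero.1 ((mul_sub _ _ _).symm.trans (e' l))⟩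

theorem FrL.flat (h : FrL f σ b) : f.Flat := by
  let _ := f.toAlgebra
  have := h.loc
  have h1 : Module.Flat A (LocalizedModule (Submonoid.powers σ) (ι → A)) :=
    Module.Flat.trans A (Localization (Submonoid.powers σ)) _
  exact Module.Flat.of_linearEquiv
    (IsLocalizedModule.iso (Submonoid.powers σ) (Fintype.linearCombination A b)).symm

section

variable [Algebra A B] {P : Type} [AddCommGroup P] [Module A P]

theorem FrL.tsurj (h : FrL (algebraMap A B) σ b) (z : B ⊗[A] P) :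
    ∃ (n : ℕ) (x : ι → P), σ ^ n • z = ∑ l, b l ⊗ₜ x l := by
  induction z using TensorProduct.induction_on with
  | zero => exact ⟨0, 0, by simp⟩
  | tmul y p =>
    obtain ⟨n, x, e⟩ := h.surj y
    refine ⟨n, fun l => x l • p, ?_⟩
    rw [smul_tmul', Algebra.smul_def, map_pow, e, sum_tmul]
    exact Finset.sum_congr rfl fun l _ => by rw [← Algebra.smul_def, smul_tmul]
  | add z z' hz hz' =>
    obtain ⟨n, x, e⟩ := hz
    obtain ⟨m, x', e'⟩ := hz'
    refine ⟨m + n, σ ^ m • x + σ ^ n • x', ?_⟩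
    simp only [Pi.add_apply, Pi.smul_apply, tmul_add, tmul_smul, Finset.sum_add_distrib,
      ← Finset.smul_sum, ← e, ← e', smul_smul, ← pow_add, smul_add, add_comm n m]

theorem tker [hl : IsLocalizedModule (Submonoid.powers σ) (Fintype.linearCombination A b)]
    (x : ι → P) (e : ∑ l, b l ⊗ₜ[A] x l = 0) : ∃ n : ℕ, ∀ l, σ ^ n • x l = 0 := by
  classical
  obtain ⟨⟨_, n, rfl⟩, e'⟩ := (IsLocalizedModule.eq_zero_iff (Submonoid.powers σ)
    (AlgebraTensorModule.rTensor A P (Fintype.linearCombination A b))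
    (m := ∑ l, Pi.single l 1 ⊗ₜ[A] x l)).1 (by
      rw [← e, map_sum]
      exact Finset.sum_congr rfl fun l _ => by simp)
  refine ⟨n, fun l => ?_⟩
  have h1 := congrArg (fun z => TensorProduct.lid A P ((LinearMap.proj l).rTensor P z)) e'
  simpa [Submonoid.smul_def, Pi.single_apply, ite_smul] using h1

end

/-- **Derived base change in terms of elements.** -/
theorem db_loc [Algebra ℂ A] (h : FrL f σ b) {M : AG A} {N : AG B} {t : GD.Hom M.G N.G}
    (ht : Sl f M N t) :
    DB f M N t ↔ LocA (AG.pi fun _ : ι => M) N (fun x => ∑ l, N.fn (b l) (t.f (x l))) σ (f σ) := by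
  let _ := f.toAlgebra
  have hl := h.loc
  let E : AH (AG.pi fun _ : ι => M).mc (bcx f M.mc) :=
    ⟨fun i => AddMonoidHom.mk' (fun x => (∑ l, b l ⊗ₜ[A] piE (fun _ => M) i x l : B ⊗[A] M.T i))
      (fun x y => by simp only [map_add, Pi.add_apply, tmul_add, Finset.sum_add_distrib]; rfl),
      fun i j hij x => by
        change (∑ l, b l ⊗ₜ[A] piE (fun _ => M) j (AG.dT _ i j x) l : B ⊗[A] M.T j) =
          (M.dT i j).lTensor B (∑ l, b l ⊗ₜ[A] piE (fun _ => M) i x l : B ⊗[A] M.T i)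
        simp only [map_sum, LinearMap.lTensor_tmul, piE_d _ i j hij]⟩
  rw [db_flat h.flat ht, loc_iff E (bm _ ht.sl) σ (f σ) ?_ ?_ ?_ ?_ ?_ ?_]
  · refine locH_iff _ _ (fun i x => ?_) _ _
    change N.val i ((bm _ ht.sl).f i
      (∑ l, b l ⊗ₜ[A] piE (fun _ => M) i x l : B ⊗[A] M.T i)) = _
    refine (congrArg (N.val i) (map_sum ((bm _ ht.sl).f i) _ _)).trans ?_
    rw [map_sum]
    rfl
  · intro i x
    change (∑ l, b l ⊗ₜ[A] piE (fun _ => M) i (σ • x) l : B ⊗[A] M.T i) =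
      σ • (∑ l, b l ⊗ₜ[A] piE (fun _ => M) i x l : B ⊗[A] M.T i)
    simp only [map_smul, Pi.smul_apply, tmul_smul, Finset.smul_sum]
  · intro i
    exact bc_ext (P := M.mc)
      (u := ((bm _ ht.sl).f i).comp (DistribSMul.toAddMonoidHom ((bcx f M.mc).X i) σ))
      (v := (DistribSMul.toAddMonoidHom (N.T i) (f σ)).comp ((bm _ ht.sl).f i))
      fun c x => mul_smul (f σ) c ((ah M N t).f i x)
  · intro i
    have h1 := h.unit.smul_bijective (β := B ⊗[A] M.T i)
    have h2 : (fun x : B ⊗[A] M.T i => f σ • x) = fun x => σ • x :=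
      funext fun x => algebraMap_smul B σ x
    exact h2 ▸ h1
  · intro i
    exact h.unit.smul_bijective
  · intro i z
    obtain ⟨n, x, e⟩ := FrL.tsurj (P := M.T i) h z
    exact ⟨n, (piE (fun _ => M) i).symm x, e⟩
  · intro i x e
    obtain ⟨n, e'⟩ := tker (σ := σ) (piE (fun _ => M) i x) e
    exact ⟨n, (piE (fun _ => M) i).injective (funext fun l => e' l)⟩

end

end Vale.Agent.P286EU
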