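import Vale.Agent.P286EU.Defs
import Vale.Agent.P286EU.Loc

/-!
# Diagrams of localisations
-/

namespace Vale.Agent.P286EU

open CategoryTheory
open Vale.Agent.P286.H847 (GD)
open Vale.Agent.P286.H353 Vale.Agent.P286ET Vale.Agent.P286EG Vale.Agent.P286E

noncomputable section

section

variable {A B R R' : Type} [CommRing A] [Algebra ℂ A] [CommRing B] [Algebra ℂ B]
  [CommRing R] [Algebra ℂ R] [CommRing R'] [Algebra ℂ R']

theorem frl_away {κ : A →ₐ[ℂ] B} {σ : A} (h : IsAway κ σ) :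
    FrL κ.toRingHom σ (fun _ : Unit => 1) where
  unit := h.unit
  surj y := by
    obtain ⟨n, x, e⟩ := h.surj y
    exact ⟨n, fun _ => x, by rw [Fintype.sum_unique, mul_one]; exact e⟩
  ker x e := by
    rw [Fintype.sum_unique, mul_one] at e
    obtain ⟨n, e'⟩ := h.ker _ e
    exact ⟨n, fun _ => e'⟩

/-- The map `x ↦ ∑ c l • ρ (x l)` is a localisation on cohomology. -/
def LocF (M : RG R) (N : RG R') (ρ : M.V →ₗ[ℂ] N.V) (s : R) (t : R') {Λ : Type} [Fintype Λ]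
    (c : Λ → R') : Prop :=
  ∀ m : ℤ,
    (∀ x : Λ → M.V, (∀ l, x l ∈ M.gr m) → (∀ l, M.d (x l) = 0) →
      (∃ y ∈ N.gr (m - 1), N.d y = ∑ l, c l • ρ (x l)) →
      ∃ (n : ℕ) (x' : Λ → M.V), ∀ l, x' l ∈ M.gr (m - 1) ∧ M.d (x' l) = s ^ n • x l) ∧
    (∀ y ∈ N.gr m, N.d y = 0 →
      ∃ (n : ℕ) (x : Λ → M.V), (∀ l, x l ∈ M.gr m ∧ M.d (x l) = 0) ∧
        ∃ y' ∈ N.gr (m - 1), N.d y' = t ^ n • y - ∑ l, c l • ρ (x l))

theorem db_rg {κ : A →ₐ[ℂ] B} {σ : A} {Λ : Type} [Fintype Λ] {b : Λ → B}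
    (h : FrL κ.toRingHom σ b) {M : RG R} {N : RG R'} {ι : A →ₐ[ℂ] R}
    {ι' : B →ₐ[ℂ] R'} {t : GD.Hom M.toGD N.toGD} (ht : Sl κ.toRingHom (rag M ι) (rag N ι') t) :
    DB κ.toRingHom (rag M ι) (rag N ι') t ↔
      LocF M N t.f (ι σ) (ι' (κ σ)) fun l => ι' (b l) := by
  have e1 : ∀ (n : ℕ) (x : M.V), ι (σ ^ n) • x = ι σ ^ n • x := fun n x => by rw [map_pow]
  have e2 : ∀ (n : ℕ) (y z : N.V), ι' (κ σ ^ n) • y - z = ι' (κ σ) ^ n • y - z := fun n x z => by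
    rw [map_pow]
  rw [db_loc h ht]
  refine forall_congr' fun m => and_congr ⟨fun H x hx hd hy => ?_, fun H x hx hd hy => ?_⟩
    ⟨fun H y hy hd => ?_, fun H y hy hd => ?_⟩
  · obtain ⟨n, x', hx', e⟩ := H x (fun l _ => hx l) (funext hd) hy
    exact ⟨n, x', fun l => ⟨hx' l trivial, (congrFun e l).trans (e1 n _)⟩⟩
  · obtain ⟨n, x', e⟩ := H x (fun l => hx l trivial) (congrFun hd) hy
    exact ⟨n, x', fun l _ => (e l).1, funext fun l => (e l).2.trans (e1 n _).symm⟩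
  · obtain ⟨n, x, hx, hdx, y', hy', e⟩ := H y hy hd
    exact ⟨n, x, fun l => ⟨hx l trivial, congrFun hdx l⟩, y', hy', e.trans (e2 n _ _)⟩
  · obtain ⟨n, x, hx, y', hy', e⟩ := H y hy hd
    exact ⟨n, x, fun l _ => (hx l).1, funext fun l => (hx l).2, y', hy', e.trans (e2 n _ _).symm⟩

theorem db_away {κ : A →ₐ[ℂ] B} {σ : A} (h : IsAway κ σ) {M : RG R} {N : RG R'} {ι : A →ₐ[ℂ] R}
    {ι' : B →ₐ[ℂ] R'} {t : GD.Hom M.toGD N.toGD} (ht : Sl κ.toRingHom (rag M ι) (rag N ι') t) :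
    DB κ.toRingHom (rag M ι) (rag N ι') t ↔ LocQ M N t.f (ι σ) (ι' (κ σ)) := by
  have e1 : ∀ x : Unit → M.V, ∑ l, ι' 1 • t.f (x l) = t.f (x ()) := fun x => by
    rw [Fintype.sum_unique, map_one, one_smul]
  rw [db_rg (frl_away h) ht]
  refine forall_congr' fun m => and_congr ⟨fun H x hx hd hy => ?_, fun H x hx hd hy => ?_⟩
    ⟨fun H y hy hd => ?_, fun H y hy hd => ?_⟩
  · obtain ⟨n, x', e⟩ := H (fun _ => x) (fun _ => hx) (fun _ => hd) (by rw [e1]; exact hy)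
    exact ⟨n, x' (), e ()⟩
  · obtain ⟨n, x', e⟩ := H (x ()) (hx ()) (hd ()) (by rw [← e1]; exact hy)
    exact ⟨n, fun _ => x', fun _ => e⟩
  · obtain ⟨n, x, hx, y', hy', e⟩ := H y hy hd
    exact ⟨n, x (), (hx ()).1, (hx ()).2, y', hy', by rw [← e1]; exact e⟩
  · obtain ⟨n, x, hx, hdx, y', hy', e⟩ := H y hy hd
    exact ⟨n, fun _ => x, fun _ => ⟨hx, hdx⟩, y', hy', by rw [e1]; exact e⟩

end

variable {I : Type} [SmallCategory I]

/-- All transition maps are localisations. -/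
structure Aw (U : UDat I) where
  σ : ∀ {i j : I}, (i ⟶ j) → U.C i
  base : ∀ {i j : I} (a : i ⟶ j), IsAway (U.κ a) (σ a)
  top : ∀ {i j : I} (a : i ⟶ j), IsAway (U.tau a) (U.ι i (σ a))

variable {U : UDat I} (A : Aw U)

/-- The diagram of localisations. -/
def Aw.T : TDat I where
  R := U.R
  tau := U.tau
  tau_id := U.tau_id
  tau_comp := U.tau_comp
  dd := U.dd
  tau_dd := U.tau_dd
  w := U.w
  w_w := U.w_w
  tau_w := U.tau_w
  w_dd := U.w_dd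
  eta := U.eta
  eta_id := U.eta_id
  eta_comp := U.eta_comp
  w_eta := U.w_eta
  s {i _} a := U.ι i (A.σ a)
  away := A.top

/-- The same family. -/
def Aw.toT (M : UObj U) : TObj A.T :=
  ⟨M.M, M.D, M.D_smul, M.D_d, M.D_gr, M.e, M.e_smul, M.e_d, M.e_gr, M.e_e, M.D_e, M.w, M.w_smul,
    M.w_d, M.w_gr, M.w_w, M.w_D, M.w_e, M.rho, M.rho_id, M.rho_comp, M.rho_smul, M.rho_d, M.rho_gr,
    M.rho_D, M.rho_e, M.rho_w⟩

/-- The same family. -/
def Aw.toU (M : TObj A.T) : UObj U :=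
  ⟨M.M, M.D, M.D_smul, M.D_d, M.D_gr, M.e, M.e_smul, M.e_d, M.e_gr, M.e_e, M.D_e, M.w, M.w_smul,
    M.w_d, M.w_gr, M.w_w, M.w_D, M.w_e, M.rho, M.rho_id, M.rho_comp, M.rho_smul, M.rho_d, M.rho_gr,
    M.rho_D, M.rho_e, M.rho_w⟩

theorem Aw.cart_iff (M : UObj U) : UCart M ↔ ∀ (i j : I) (a : i ⟶ j),
    LocQ (M.M i) (M.M j) (M.rho a) (U.ι i (A.σ a)) (U.tau a (U.ι i (A.σ a))) :=
  forall_congr' fun _ => forall_congr' fun _ => forall_congr' fun a => by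
    rw [U.tau_ι]
    exact db_away (A.base a) (M.sl a)

/-- The action on cochains. -/
def Aw.cT (M N : UObj U) (p : ℤ) : UCo M N p →ₗ[ℂ] Co (A.toT M) (A.toT N) p where
  toFun u := Co.mk (M := A.toT M) (N := A.toT N) u.f
    ⟨u.isCo.deg, u.isCo.lin, u.isCo.D, u.isCo.e, u.isCo.w, u.isCo.rho⟩
  map_add' _ _ := rfl
  map_smul' _ _ := rfl

/-- The action on cochains. -/
def Aw.cU (M N : TObj A.T) (p : ℤ) : Co M N p →ₗ[ℂ] UCo (A.toU M) (A.toU N) p where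
  toFun u := UCo.mk (M := A.toU M) (N := A.toU N) u.f
    ⟨u.isCo.deg, u.isCo.lin, u.isCo.D, u.isCo.e, u.isCo.w, u.isCo.rho⟩
  map_add' _ _ := rfl
  map_smul' _ _ := rfl

/-- The DG functor. -/
def Aw.fT : DGF (UA U) (TA A.T) where
  obj := A.toT
  map n := A.cT _ _ n
  map_one _ := rfl
  map_comp _ _ _ := rfl
  map_d m n α := Co.eq_dif (A.cT _ _ m α) (A.cT _ _ n (UCo.dif m n α))
    (fun h i x => UCo.dif_f h α i x)
    (fun h => (congrArg (A.cT _ _ n) (UCo.dif_ne h α)).trans (map_zero _))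

/-- The DG functor. -/
def Aw.fU : DGF (TA A.T) (UA U) where
  obj := A.toU
  map n := A.cU _ _ n
  map_one _ := rfl
  map_comp _ _ _ := rfl
  map_d m n α := UCo.eq_dif (A.cU _ _ m α) (A.cU _ _ n (Co.dif m n α))
    (fun h i x => Co.dif_f h α i x)
    (fun h => (congrArg (A.cU _ _ n) (Co.dif_ne h α)).trans (map_zero _))

theorem Aw.eqv : EQV (um U) (tm A.T) :=
  ⟨show DGF ((UA U).full UCart) ((TA A.T).full Cart) from
      A.fT.restr fun X h i j a => (A.cart_iff X).1 h i j a,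
    show DGF ((TA A.T).full Cart) ((UA U).full UCart) from
      A.fU.restr fun X h => (A.cart_iff (A.toU X)).2 fun _ _ a => h a,
    fun _ _ _ h => h, fun _ _ _ h => h, Relation.EqvGen.refl _, Relation.EqvGen.refl _⟩

end

end Vale.Agent.P286EU
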