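import Vale.Agent.P286ET.Defs
import Vale.Agent.P286EG.Ag3
import Vale.Agent.P286E.Eqv

/-!
# Twisted differential modules on a diagram of charts with etale transition maps
-/

namespace Vale.Agent.P286EU

open CategoryTheory
open Vale.Agent.P286.H847 (GD)
open Vale.Agent.P286.H353 Vale.Agent.P286ET Vale.Agent.P286EG Vale.Agent.P286E

noncomputable section

/-- A diagram of charts with a vector field `dd`, an involution `w` and a cocycle `eta`, over a
diagram of base rings. -/
structure UDat (I : Type) [SmallCategory I] : Type 1 where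
  R : I → Type
  [cr : ∀ i, CommRing (R i)]
  [alg : ∀ i, Algebra ℂ (R i)]
  tau : ∀ {i j : I}, (i ⟶ j) → (R i →ₐ[ℂ] R j)
  tau_id : ∀ (i : I) (r : R i), tau (𝟙 i) r = r
  tau_comp : ∀ {i j k : I} (a : i ⟶ j) (b : j ⟶ k) (r : R i), tau (a ≫ b) r = tau b (tau a r)
  dd : ∀ i, Derivation ℂ (R i) (R i)
  tau_dd : ∀ {i j : I} (a : i ⟶ j) (r : R i), tau a (dd i r) = dd j (tau a r)
  w : ∀ i, R i →ₐ[ℂ] R i
  w_w : ∀ (i : I) (r : R i), w i (w i r) = r
  tau_w : ∀ {i j : I} (a : i ⟶ j) (r : R i), tau a (w i r) = w j (tau a r)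
  w_dd : ∀ (i : I) (r : R i), w i (dd i r) = - dd i (w i r)
  eta : ∀ {i j : I}, (i ⟶ j) → R j
  eta_id : ∀ i : I, eta (𝟙 i) = 0
  eta_comp : ∀ {i j k : I} (a : i ⟶ j) (b : j ⟶ k), eta (a ≫ b) = tau b (eta a) + eta b
  w_eta : ∀ {i j : I} (a : i ⟶ j), w j (eta a) = - eta a
  C : I → Type
  [cc : ∀ i, CommRing (C i)]
  [ca : ∀ i, Algebra ℂ (C i)]
  κ : ∀ {i j : I}, (i ⟶ j) → (C i →ₐ[ℂ] C j)
  ι : ∀ i, C i →ₐ[ℂ] R i
  tau_ι : ∀ {i j : I} (a : i ⟶ j) (z : C i), tau a (ι i z) = ι j (κ a z)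

attribute [instance] UDat.cr UDat.alg UDat.cc UDat.ca

/-- A family of complexes on the charts with a twisted connection `D`, an odd operator `e` of
degree `-1`, an involution `w` and transition maps `rho`. -/
structure UObj {I : Type} [SmallCategory I] (T : UDat I) : Type 1 where
  M : ∀ i : I, RG (T.R i)
  D : ∀ i, (M i).V →ₗ[ℂ] (M i).V
  D_smul : ∀ i (r : T.R i) (x : (M i).V), D i (r • x) = r • D i x + T.dd i r • x
  D_d : ∀ i (x : (M i).V), (M i).d (D i x) = D i ((M i).d x)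
  D_gr : ∀ i (m : ℤ) (x : (M i).V), x ∈ (M i).gr m → D i x ∈ (M i).gr m
  e : ∀ i, (M i).V →ₗ[ℂ] (M i).V
  e_smul : ∀ i (r : T.R i) (x : (M i).V), e i (r • x) = r • e i x
  e_d : ∀ i (x : (M i).V), (M i).d (e i x) = - e i ((M i).d x)
  e_gr : ∀ i (m : ℤ) (x : (M i).V), x ∈ (M i).gr m → e i x ∈ (M i).gr (m - 1)
  e_e : ∀ i (x : (M i).V), e i (e i x) = 0
  D_e : ∀ i (x : (M i).V), D i (e i x) = e i (D i x)
  w : ∀ i, (M i).V →ₗ[ℂ] (M i).V
  w_smul : ∀ i (r : T.R i) (x : (M i).V), w i (r • x) = T.w i r • w i x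
  w_d : ∀ i (x : (M i).V), (M i).d (w i x) = w i ((M i).d x)
  w_gr : ∀ i (m : ℤ) (x : (M i).V), x ∈ (M i).gr m → w i x ∈ (M i).gr m
  w_w : ∀ i (x : (M i).V), w i (w i x) = x
  w_D : ∀ i (x : (M i).V), w i (D i x) = - D i (w i x)
  w_e : ∀ i (x : (M i).V), w i (e i x) = - e i (w i x)
  rho : ∀ {i j : I}, (i ⟶ j) → ((M i).V →ₗ[ℂ] (M j).V)
  rho_id : ∀ i (x : (M i).V), rho (𝟙 i) x = x
  rho_comp : ∀ {i j k : I} (a : i ⟶ j) (b : j ⟶ k) (x : (M i).V),
    rho (a ≫ b) x = rho b (rho a x)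
  rho_smul : ∀ {i j : I} (a : i ⟶ j) (r : T.R i) (x : (M i).V),
    rho a (r • x) = T.tau a r • rho a x
  rho_d : ∀ {i j : I} (a : i ⟶ j) (x : (M i).V), rho a ((M i).d x) = (M j).d (rho a x)
  rho_gr : ∀ {i j : I} (a : i ⟶ j) (m : ℤ) (x : (M i).V),
    x ∈ (M i).gr m → rho a x ∈ (M j).gr m
  rho_D : ∀ {i j : I} (a : i ⟶ j) (x : (M i).V),
    rho a (D i x) = D j (rho a x) + T.eta a • rho a x
  rho_e : ∀ {i j : I} (a : i ⟶ j) (x : (M i).V), rho a (e i x) = e j (rho a x)
  rho_w : ∀ {i j : I} (a : i ⟶ j) (x : (M i).V), rho a (w i x) = w j (rho a x)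

variable {I J : Type} [SmallCategory I] [SmallCategory J] {T : UDat I}

/-- The family `u` is a cochain of degree `p`. -/
structure IsUCo (M N : UObj T) (p : ℤ) (u : ∀ i, (M.M i).V →ₗ[ℂ] (N.M i).V) : Prop where
  deg : ∀ i (m : ℤ) (x : (M.M i).V), x ∈ (M.M i).gr m → u i x ∈ (N.M i).gr (m + p)
  lin : ∀ i (r : T.R i) (x : (M.M i).V), u i (r • x) = r • u i x
  D : ∀ i (x : (M.M i).V), u i (M.D i x) = N.D i (u i x)
  e : ∀ i (x : (M.M i).V), u i (M.e i x) = (p.negOnePow : ℤ) • N.e i (u i x)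
  w : ∀ i (x : (M.M i).V), u i (M.w i x) = N.w i (u i x)
  rho : ∀ {i j : I} (a : i ⟶ j) (x : (M.M i).V), u j (M.rho a x) = N.rho a (u i x)

/-- The cochains of degree `p`. -/
def ucoS (M N : UObj T) (p : ℤ) : Submodule ℂ (∀ i, (M.M i).V →ₗ[ℂ] (N.M i).V) where
  carrier := {u | IsUCo M N p u}
  add_mem' := by
    intro u v hu hv
    refine ⟨fun i m x hx => add_mem (hu.deg i m x hx) (hv.deg i m x hx), ?_, ?_, ?_, ?_, ?_⟩
    · intro i r x
      simp only [Pi.add_apply, LinearMap.add_apply, hu.lin, hv.lin, smul_add]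
    · intro i x
      simp only [Pi.add_apply, LinearMap.add_apply, hu.D, hv.D, map_add]
    · intro i x
      simp only [Pi.add_apply, LinearMap.add_apply, hu.e, hv.e, map_add, smul_add]
    · intro i x
      simp only [Pi.add_apply, LinearMap.add_apply, hu.w, hv.w, map_add]
    · intro i j a x
      simp only [Pi.add_apply, LinearMap.add_apply, hu.rho, hv.rho, map_add]
  zero_mem' := by
    refine ⟨fun i m x hx => zero_mem _, ?_, ?_, ?_, ?_, ?_⟩ <;> intros <;> simp
  smul_mem' := by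
    intro c u hu
    refine ⟨fun i m x hx => Submodule.smul_mem _ c (hu.deg i m x hx), ?_, ?_, ?_, ?_, ?_⟩
    · intro i r x
      simp only [Pi.smul_apply, LinearMap.smul_apply, hu.lin]
      exact smul_comm c r _
    · intro i x
      simp only [Pi.smul_apply, LinearMap.smul_apply, hu.D, map_smul]
    · intro i x
      simp only [Pi.smul_apply, LinearMap.smul_apply, hu.e, map_smul]
      exact smul_comm c _ _
    · intro i x
      simp only [Pi.smul_apply, LinearMap.smul_apply, hu.w, map_smul]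
    · intro i j a x
      simp only [Pi.smul_apply, LinearMap.smul_apply, hu.rho, map_smul]

/-- The cochains of degree `p`. -/
abbrev UCo (M N : UObj T) (p : ℤ) : Type := ucoS M N p

namespace UCo

variable {M N P : UObj T} {p q r : ℤ}

/-- The underlying maps. -/
def f (u : UCo M N p) (i : I) : (M.M i).V →ₗ[ℂ] (N.M i).V := u.1 i

theorem isCo (u : UCo M N p) : IsUCo M N p u.f := u.2

/-- The cochain defined by a family of maps. -/
def mk (u : ∀ i, (M.M i).V →ₗ[ℂ] (N.M i).V) (h : IsUCo M N p u) : UCo M N p := ⟨u, h⟩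

theorem mk_f (u : ∀ i, (M.M i).V →ₗ[ℂ] (N.M i).V) (h : IsUCo M N p u) : (mk u h).f = u := rfl

@[simp] theorem zero_f (i : I) : (0 : UCo M N p).f i = 0 := rfl
@[simp] theorem add_f (z w : UCo M N p) (i : I) : (z + w).f i = z.f i + w.f i := rfl
@[simp] theorem sub_f (z w : UCo M N p) (i : I) : (z - w).f i = z.f i - w.f i := rfl
@[simp] theorem neg_f (z : UCo M N p) (i : I) : (-z).f i = - z.f i := rfl
@[simp] theorem smul_f (c : ℂ) (z : UCo M N p) (i : I) : (c • z).f i = c • z.f i := rfl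

theorem deg' (u : UCo M N p) (i : I) {m k : ℤ} (h : k = m + p) {x : (M.M i).V}
    (hx : x ∈ (M.M i).gr m) : u.f i x ∈ (N.M i).gr k := h ▸ u.isCo.deg i m x hx

theorem ext' {u w : UCo M N p} (h : ∀ i x, u.f i x = w.f i x) : u = w :=
  Subtype.ext (funext fun i => LinearMap.ext (h i))

/-- The identity. -/
def one (M : UObj T) : UCo M M 0 :=
  mk (fun _ => LinearMap.id)
    ⟨fun i m x hx => by simpa using hx, fun _ _ _ => rfl, fun _ _ => rfl, fun i x => by simp,
      fun _ _ => rfl, fun _ _ => rfl⟩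

/-- The composition (first `u`, then `w`). -/
def cmp (h : p + q = r) (u : UCo M N p) (w : UCo N P q) : UCo M P r :=
  mk (fun i => (w.f i).comp (u.f i))
    ⟨fun i m x hx => deg' w i (by omega) (u.isCo.deg i m x hx),
      fun i c x => by rw [LinearMap.comp_apply, LinearMap.comp_apply, u.isCo.lin, w.isCo.lin],
      fun i x => by rw [LinearMap.comp_apply, LinearMap.comp_apply, u.isCo.D, w.isCo.D],
      fun i x => by
        rw [LinearMap.comp_apply, LinearMap.comp_apply, u.isCo.e, map_zsmul, w.isCo.e, smul_smul,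
          ← h, nop_add],
      fun i x => by rw [LinearMap.comp_apply, LinearMap.comp_apply, u.isCo.w, w.isCo.w],
      fun a x => by rw [LinearMap.comp_apply, LinearMap.comp_apply, u.isCo.rho, w.isCo.rho]⟩

/-- The differential. -/
def dl (h : p + 1 = q) (u : UCo M N p) : UCo M N q :=
  mk (fun i => (N.M i).d.comp (u.f i) - (p.negOnePow : ℤ) • (u.f i).comp (M.M i).d)
    ⟨fun i m x hx => by
      have h1 := (N.M i).dgr' (n := m + q) (by omega) (u.isCo.deg i m x hx)
      have h2 := deg' u i (k := m + q) (by omega) ((M.M i).dgr m x hx)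
      exact sub_mem h1 (zsmul_mem h2 _),
    fun i c x => by
      simp only [LinearMap.sub_apply, LinearMap.comp_apply, LinearMap.smul_apply, u.isCo.lin,
        RG.d_smul, smul_sub]
      rw [smul_comm c],
    fun i x => by
      simp only [LinearMap.sub_apply, LinearMap.comp_apply, LinearMap.smul_apply, map_sub,
        map_zsmul, u.isCo.D, M.D_d, N.D_d],
    fun i x => by
      simp only [LinearMap.sub_apply, LinearMap.comp_apply, LinearMap.smul_apply, map_sub,
        map_zsmul, M.e_d, map_neg, u.isCo.e, N.e_d, ← h, nop_succ]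
      simp only [smul_sub, smul_neg, neg_smul],
    fun i x => by
      simp only [LinearMap.sub_apply, LinearMap.comp_apply, LinearMap.smul_apply, map_sub,
        map_zsmul, u.isCo.w, M.w_d, N.w_d],
    fun a x => by
      simp only [LinearMap.sub_apply, LinearMap.comp_apply, LinearMap.smul_apply, map_sub,
        map_zsmul, u.isCo.rho, ← M.rho_d, N.rho_d]⟩

theorem one_f (i : I) (x : (M.M i).V) : (one M).f i x = x := rfl

theorem cmp_f (h : p + q = r) (u : UCo M N p) (w : UCo N P q) (i : I) (x : (M.M i).V) :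
    (cmp h u w).f i x = w.f i (u.f i x) := rfl

theorem dl_f (h : p + 1 = q) (u : UCo M N p) (i : I) (x : (M.M i).V) :
    (dl h u).f i x = (N.M i).d (u.f i x) - (p.negOnePow : ℤ) • u.f i ((M.M i).d x) := rfl

/-- The differential, in all cases. -/
def dif (p q : ℤ) (u : UCo M N p) : UCo M N q := if h : p + 1 = q then dl h u else 0

theorem dif_eq (h : p + 1 = q) (u : UCo M N p) : dif p q u = dl h u := dif_pos h

theorem dif_ne (h : ¬ p + 1 = q) (u : UCo M N p) : dif p q u = 0 := dif_neg h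

theorem dif_f (h : p + 1 = q) (u : UCo M N p) (i : I) (x : (M.M i).V) :
    (dif p q u).f i x = (N.M i).d (u.f i x) - (p.negOnePow : ℤ) • u.f i ((M.M i).d x) := by
  rw [dif_eq h]
  rfl

theorem eq_dif (u : UCo M N p) (w : UCo M N q)
    (h1 : p + 1 = q → ∀ i (x : (M.M i).V),
      w.f i x = (N.M i).d (u.f i x) - (p.negOnePow : ℤ) • u.f i ((M.M i).d x))
    (h0 : ¬ p + 1 = q → w = 0) : w = dif p q u := by
  by_cases h : p + 1 = q
  · rw [dif_eq h]
    exact ext' (h1 h)
  · rw [dif_ne h]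
    exact h0 h

theorem dif_zero_iff (u : UCo M N 0) :
    dif 0 1 u = 0 ↔ ∀ i x, u.f i ((M.M i).d x) = (N.M i).d (u.f i x) := by
  constructor
  · intro h i x
    have h1 := congrArg (fun w : UCo M N 1 => w.f i x) h
    simp only [dif_f (zero_add 1), Int.negOnePow_zero, Units.val_one, one_smul, zero_f,
      LinearMap.zero_apply] at h1
    exact (sub_eq_zero.1 h1).symm
  · intro h
    apply ext'
    intro i x
    rw [dif_f (zero_add 1), h]
    simp

end UCo

/-- The DG category of all families. -/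
def UA (T : UDat I) : DGC.{1, 0} where
  Obj := UObj T
  Hom M N p := UCo M N p
  one := UCo.one
  comp h u w := UCo.cmp h u w
  d p q u := UCo.dif p q u
  one_comp _ := rfl
  comp_one _ := rfl
  assoc _ _ _ := rfl
  d_one N := (UCo.dif_zero_iff _).2 fun _ _ => rfl
  d_comp f g hf hg := (UCo.dif_zero_iff _).2 fun i x => by
    rw [UCo.dif_zero_iff] at hf hg
    rw [UCo.cmp_f, UCo.cmp_f, hf, hg]

/-- A graded differential module as a space with an action of a base ring. -/
def rag {A R : Type} [CommRing A] [Algebra ℂ A] [CommRing R] [Algebra ℂ R] (M : RG R)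
    (ι : A →ₐ[ℂ] R) : AG A where
  G := M.toGD
  fn := (Algebra.lsmul ℂ ℂ M.V : R →ₐ[ℂ] Module.End ℂ M.V).toRingHom.comp ι.toRingHom
  gr a m x hx := M.gr_smul m (ι a) x hx
  d a x := M.d_smul (ι a) x

theorem rag_fn {A R : Type} [CommRing A] [Algebra ℂ A] [CommRing R] [Algebra ℂ R] (M : RG R)
    (ι : A →ₐ[ℂ] R) (a : A) (x : M.V) : (rag M ι).fn a x = ι a • x := rfl

/-- The complex on the chart `i`, over the base ring. -/
def UObj.ag (M : UObj T) (i : I) : AG (T.C i) := rag (M.M i) (T.ι i)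

/-- The transition map. -/
def UObj.tr (M : UObj T) {i j : I} (a : i ⟶ j) : GD.Hom (M.ag i).G (M.ag j).G :=
  ⟨M.rho a, M.rho_d a, M.rho_gr a⟩

theorem UObj.sl (M : UObj T) {i j : I} (a : i ⟶ j) :
    Sl (T.κ a).toRingHom (M.ag i) (M.ag j) (M.tr a) := fun z x =>
  (M.rho_smul a (T.ι i z) x).trans (congrArg (· • M.rho a x) (T.tau_ι a z))

/-- The family is cartesian. -/
def UCart (M : UObj T) : Prop :=
  ∀ (i j : I) (a : i ⟶ j), DB (T.κ a).toRingHom (M.ag i) (M.ag j) (M.tr a)

/-- The DG category of cartesian families. -/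
def UM (T : UDat I) : DGC.{1, 0} := (UA T).full UCart

/-- The morphism of graded differential spaces defined by a closed cochain of degree `0`. -/
def UCo.gd {M N : UObj T} (u : UCo M N 0) (h : UCo.dif 0 1 u = 0) (i : I) :
    GD.Hom (M.M i).toGD (N.M i).toGD where
  f := u.f i
  comm := (UCo.dif_zero_iff u).1 h i
  deg m _ hx := u.deg' i (add_zero m).symm hx

/-- The quasi-isomorphisms of families. -/
def UWA (T : UDat I) : MorphismProperty (Z0 (UA T)) := fun _ _ a =>
  ∀ i, GD.Qis (UCo.gd (zf a) (zf_cl a) i)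

/-- The quasi-isomorphisms of cartesian families. -/
def UWM (T : UDat I) : MorphismProperty (Z0 (UM T)) := fun _ _ a =>
  ∀ i, GD.Qis (UCo.gd (zf a) (zf_cl a) i)

/-- All families. -/
def ua (T : UDat I) : WD.{1, 0} := ⟨UA T, UWA T, fun _ _ => GD.Qis.id _⟩

/-- The cartesian families. -/
def um (T : UDat I) : WD.{1, 0} := ⟨UM T, UWM T, fun _ _ => GD.Qis.id _⟩

/-- The cartesian families on a diagram of localisations. -/
def tm (T : TDat I) : WD.{1, 0} := ⟨TM T, WM T, fun _ _ => GD.Qis.id _⟩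

theorem eqv_tm {T : TDat I} {T' : TDat J} : EQV (tm T) (tm T') ↔ TEq T T' := Iff.rfl

end

end Vale.Agent.P286EU
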