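import Vale.Agent.P286EU.St

/-!
# The two diagrams of the elliptic curve are Fourier-Mukai partners
-/

namespace Vale.Agent.P286EU

open CategoryTheory Polynomial
open Vale.Agent.P286ET Vale.Agent.P286E

noncomputable section

section

variable {A B : Type} [CommRing A] [Algebra ℂ A] [CommRing B] [Algebra ℂ B]

theorem away_sq {φ : A →ₐ[ℂ] B} {s t : A} (h : IsAway φ s) (e : t ^ 2 = s) : IsAway φ t where
  unit := (isUnit_pow_iff two_ne_zero).1 (by rw [← map_pow, e]; exact h.unit)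
  surj y := by
    obtain ⟨n, x, hx⟩ := h.surj y
    exact ⟨2 * n, x, by rw [pow_mul, ← map_pow φ t, e, hx]⟩
  ker x hx := by
    obtain ⟨n, hn⟩ := h.ker x hx
    exact ⟨2 * n, by rw [pow_mul, e, hn]⟩

theorem poly_mem (φ : ℂ[X] →ₐ[ℂ] B) (S : Subalgebra ℂ B) (e : ℂ) (h : φ (X - C e) ∈ S) (p : ℂ[X]) :
    φ p ∈ S := by
  have h1 : (⊤ : Subalgebra ℂ ℂ[X]) ≤ S.comap φ := by
    rw [← Polynomial.adjoin_X]
    refine Algebra.adjoin_le (Set.singleton_subset_iff.2 ?_)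
    have h2 := S.add_mem h (S.algebraMap_mem e)
    rw [← φ.commutes, ← map_add] at h2
    exact (sub_add_cancel X (C e)) ▸ h2
  exact h1 Algebra.mem_top

theorem dc_top {f : A} (S : Subalgebra ℂ (Dc f)) (h : ∀ a, Dc.of f a ∈ S) (ht : Dc.t f ∈ S) :
    S = ⊤ := by
  refine eq_top_iff.2 fun x _ => ?_
  obtain ⟨α, β, rfl⟩ := dc_rep x
  exact S.add_mem (h α) (S.mul_mem (h β) ht)

theorem dcM_inj {f : A} {g : B} (κ : A →ₐ[ℂ] B) (c : B) (h : κ f = c ^ 2 * g) (hc : IsUnit c)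
    (hκ : Function.Injective κ) : Function.Injective (dcM κ c h) := by
  rw [injective_iff_map_eq_zero] at hκ ⊢
  intro x hx
  obtain ⟨α, β, rfl⟩ := dc_rep x
  rw [map_add, map_mul, dcM_of, dcM_of, dcM_t, ← mul_assoc, ← map_mul] at hx
  rw [hκ _ (dc_free hx).1, hκ _ (hc.mul_left_eq_zero.1 (dc_free hx).2), map_zero, zero_mul,
    add_zero]

end

variable {E : Ell} (e : Rt E)

theorem g_eq : e.g = (X - C e.e) ^ 2 + (3 * e.e) • (X - C e.e) + algebraMap ℂ ℂ[X] e.d := by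
  simp only [Rt.g, Rt.d, smul_eq_C_mul, ← C_eq_algebraMap, map_add, map_mul, map_pow, map_ofNat]
  ring

theorem f'_eq : derivative E.f = (3 : ℂ) • (X - C e.e) ^ 2 + (2 * (3 * e.e)) • (X - C e.e) +
    algebraMap ℂ ℂ[X] e.d := by
  simp only [Ell.f, Rt.d, smul_eq_C_mul, ← C_eq_algebraMap, map_add, map_mul, map_pow, map_ofNat, derivative_X_pow, derivative_mul,
    derivative_C, derivative_X, Nat.cast_ofNat]
  ring

theorem disc_ne : (3 * e.e) ^ 2 - 4 * e.d ≠ 0 := fun h => E.disc (by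
  have ha : E.a = -(3 / 4) * e.e ^ 2 := by rw [Rt.d] at h; linear_combination (-1 / 4) * h
  have hb : E.b = -(1 / 4) * e.e ^ 3 := by have := e.rt; rw [ha] at this; linear_combination this
  rw [ha, hb]; ring)

/-- The structure map of the second chart. -/
def lb : ℂ[X] →ₐ[ℂ] Localization.Away e.g := IsScalarTower.toAlgHom ℂ ℂ[X] _

theorem kb_x : e.kb (lb e (X - C e.e)) = algebraMap ℂ E.Cn e.d * e.w :=
  (e.kb_of _).trans ((thE_ka e _).symm.trans (thE_x e))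

/-- The function on the intersection. -/
abbrev fn (E : Ell) : E.Cn := E.ka E.f

/-- The function on the second chart. -/
abbrev fb : Localization.Away e.g := lb e E.f

/-- The unit `c`. -/
abbrev cn : E.Cn := -(algebraMap ℂ E.Cn e.d * e.w ^ 2)

theorem kb_fb : e.kb (fb e) = cn e ^ 2 * fn E := (ES e).kb_f

/-- The first transition map. -/
def ta (E : Ell) : Dc E.f →ₐ[ℂ] Dc (fn E) := dcM E.ka 1 (by rw [one_pow, one_mul])

/-- The second transition map. -/
def tb : Dc (fb e) →ₐ[ℂ] Dc (fn E) := dcM e.kb (cn e) (kb_fb e)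

theorem ta_t : ta E (Dc.t E.f) = Dc.t (fn E) := by rw [ta, dcM_t, map_one, one_mul]

theorem ta_of (z : ℂ[X]) : ta E (Dc.of E.f z) = Dc.of (fn E) (E.ka z) := dcM_of _ _ _ z

theorem tb_t : tb e (Dc.t (fb e)) = Dc.of (fn E) (cn e) * Dc.t (fn E) := dcM_t _ _ _

theorem tb_of (z : Localization.Away e.g) : tb e (Dc.of (fb e) z) = Dc.of (fn E) (e.kb z) :=
  dcM_of _ _ _ z

theorem ell_eqn : Dc.t E.f ^ 2 = Dc.of E.f (X - C e.e) * (Dc.of E.f (X - C e.e) ^ 2 +
    (3 * e.e) • Dc.of E.f (X - C e.e) + algebraMap ℂ _ e.d) := by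
  have h := congrArg (Dc.of E.f) (e.fac.trans (congrArg ((X - C e.e) * ·) (g_eq e)))
  rw [map_mul, map_add, map_add, map_pow, map_smul, AlgHom.commutes] at h
  rw [Dc.t_sq, h]

theorem ell_gen_a : Algebra.adjoin ℂ {Dc.of E.f (X - C e.e), Dc.t E.f} = ⊤ :=
  dc_top _ (poly_mem (Dc.of E.f) _ e.e (Algebra.subset_adjoin (Or.inl rfl)))
    (Algebra.subset_adjoin (Or.inr rfl))

theorem ell_free (P Q : ℂ[X])
    (h : aeval (Dc.of E.f (X - C e.e)) P + aeval (Dc.of E.f (X - C e.e)) Q * Dc.t E.f = 0) :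
    P = 0 ∧ Q = 0 := by
  rw [aeval_algHom_apply, aeval_algHom_apply] at h
  have h1 : ∀ R : ℂ[X], aeval (X - C e.e) R = 0 → R = 0 := fun R hR =>
    (algEquivAevalXAddC (-e.e)).injective (by
      rw [map_zero, ← hR, sub_eq_add_neg, ← map_neg]
      rfl)
  exact ⟨h1 _ (dc_free h).1, h1 _ (dc_free h).2⟩

theorem ell_gi : Dc.of (fb e) (IsLocalization.Away.invSelf e.g) *
    (Dc.of (fb e) (lb e (X - C e.e)) ^ 2 + (3 * e.e) • Dc.of (fb e) (lb e (X - C e.e)) +
      algebraMap ℂ _ e.d) = 1 := by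
  have h := congrArg (fun z => Dc.of (fb e) (lb e z)) (g_eq e)
  simp only [map_add, map_pow, map_smul, AlgHom.commutes] at h
  rw [← h, ← map_mul, mul_comm, ← map_one (Dc.of (fb e))]
  exact congrArg _ (IsLocalization.Away.mul_invSelf e.g)

theorem ell_gen_b : Algebra.adjoin ℂ {Dc.of (fb e) (lb e (X - C e.e)), Dc.t (fb e),
    Dc.of (fb e) (IsLocalization.Away.invSelf e.g)} = ⊤ := by
  refine dc_top _ (fun z => ?_) (Algebra.subset_adjoin (by simp))
  obtain ⟨n, p, h⟩ := IsLocalization.Away.surj e.g z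
  have h1 : z = lb e p * IsLocalization.Away.invSelf e.g ^ n := by
    change z = algebraMap ℂ[X] _ p * _
    rw [← h, mul_assoc, ← mul_pow, IsLocalization.Away.mul_invSelf, one_pow, mul_one]
  rw [h1, map_mul, map_pow]
  exact Subalgebra.mul_mem _ (poly_mem ((Dc.of (fb e)).comp (lb e)) _ e.e
    (Algebra.subset_adjoin (by simp)) p) (Subalgebra.pow_mem _ (Algebra.subset_adjoin (by simp)) n)

theorem ell_u : tb e (Dc.of (fb e) (lb e (X - C e.e))) * ta E (Dc.of E.f (X - C e.e)) =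
    algebraMap ℂ _ e.d := by
  rw [ta_of, tb_of, kb_x, ← map_mul, mul_assoc, mul_comm e.w, e.mul_w, mul_one, AlgHom.commutes]

theorem ell_t : tb e (Dc.t (fb e)) * ta E (Dc.of E.f (X - C e.e)) ^ 2 =
    - (e.d • ta E (Dc.t E.f)) := by
  have h := congrArg (Dc.of (fn E)) e.mul_w
  rw [map_mul, map_one] at h
  rw [ta_of, tb_t, ta_t, map_neg, map_mul, map_pow, AlgHom.commutes, Algebra.smul_def]
  linear_combination (- algebraMap ℂ _ e.d * Dc.t (fn E) *
    (1 + Dc.of (fn E) (E.ka (X - C e.e)) * Dc.of (fn E) e.w)) * h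

theorem ell_dx : dcD E.f derivative' (Dc.of E.f (X - C e.e)) = (1 : ℂ) • Dc.t E.f := by
  rw [dcD_of, one_smul]
  change _ * Dc.of E.f (derivative (X - C e.e)) = _
  rw [derivative_X_sub_C, map_one, mul_one]

theorem ell_dy : (2 : ℂ) • dcD E.f derivative' (Dc.t E.f) = (1 : ℂ) •
    ((3 : ℂ) • Dc.of E.f (X - C e.e) ^ 2 + (2 * (3 * e.e)) • Dc.of E.f (X - C e.e) +
      algebraMap ℂ _ e.d) := by
  have h := congrArg (Dc.of E.f) (f'_eq e)
  rw [map_add, map_add, map_smul, map_smul, map_pow, AlgHom.commutes] at h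
  rw [dcD_t, smul_smul, mul_inv_cancel₀ two_ne_zero, ← h]
  rfl

variable (lam : ℂ) (k : ℤ)

/-- The curve. -/
def ell : EllD ((esv e).aw lam k).T (3 * e.e) e.d 1 where
  x := Dc.of E.f (X - C e.e)
  y := Dc.t E.f
  u := Dc.of (fb e) (lb e (X - C e.e))
  t := Dc.t (fb e)
  gi := Dc.of (fb e) (IsLocalization.Away.invSelf e.g)
  eqn := ell_eqn e
  gen_a := ell_gen_a e
  free := ell_free e
  away_a := away_sq (((esv e).aw lam k).top (Ix.tn .a)) (Dc.t_sq E.f)
  gi_mul := ell_gi e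
  gen_b := ell_gen_b e
  inj_b := dcM_inj e.kb (cn e) (kb_fb e) (ES e).c_unit (kb_inj e)
  tau_u := ell_u e
  tau_t := ell_t e
  dd_x := ell_dx e
  dd_y := ell_dy e
  w_x := dcW_of E.f _
  w_y := dcW_t E.f

/-- The function `-y / (2 x)`. -/
def hbE : Dc (fn E) := (-(2 : ℂ)⁻¹) • (Dc.of (fn E) e.w * Dc.t (fn E))

theorem hb_eq : (-(2 * e.d)⁻¹) • (ta E (Dc.t E.f) * tb e (Dc.of (fb e) (lb e (X - C e.e)))) =
    hbE e := by
  rw [ta_t, tb_of, kb_x, ← Algebra.smul_def, map_smul, mul_smul_comm, smul_smul, hbE, mul_comm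
    (Dc.t (fn E))]
  congr 1
  have := e.d_ne
  field_simp

theorem lr1 : dlg (pnE E) (ES e).r_unit = e.w :=
  dlg_eq (pnE E) (r := E.ka (X - C e.e)) _ (e.mul_w.trans (pnE_x e).symm)

theorem pn_c : pnE E (cn e) = cn e * (-2 * e.w) := by
  rw [map_neg, Derivation.leibniz, Derivation.map_algebraMap, Derivation.leibniz_pow, pnE_w]
  simp only [smul_eq_mul, nsmul_eq_mul]
  push_cast
  ring

theorem lc1 : dlg (pnE E) (ES e).c_unit = -2 * e.w := dlg_eq (pnE E) (r := cn e) _ (pn_c e).symm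

theorem lev1_eq : Dc.of (fn E) (lam • e.w + k • (-2 * e.w)) * Dc.t (fn E) - 0 =
    ((-2 * lam + 4 * k) * 1) • hbE e + ta E 0 + tb e 0 := by
  rw [map_zero, map_zero, add_zero, add_zero, sub_zero, hbE, smul_smul,
    ← Int.cast_smul_eq_zsmul ℂ, neg_mul (2 : E.Cn), two_mul e.w, ← two_smul ℂ e.w,
    ← neg_smul, smul_smul, ← add_smul, map_smul, smul_mul_assoc]
  congr 1
  ring

theorem lev1 : (ell e lam k).Lev (-2 * lam + 4 * k) := by
  refine ⟨0, 0, Eq.trans ?_ ((lev1_eq e lam k).trans ?_)⟩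
  · exact congrArg₂ (· - ·) (congrArg (fun z => Dc.of (fn E) z * Dc.t (fn E))
      (congrArg₂ (fun s t : E.Cn => lam • s + k • t) (lr1 e) (lc1 e)))
      ((congrArg (fun z => Dc.of (fn E) z * Dc.t (fn E)) ((V1 e).lz_zero lam k (Ix.tn .a) rfl
        (Derivation.map_one_eq_zero (pnE E)))).trans
        ((congrArg (· * Dc.t (fn E)) (map_zero _)).trans (zero_mul _)))
  · rw [← hb_eq]
    rfl

/-- The correction on the second chart. -/
def bE : Dc (fb e) := Dc.t (fb e) * Dc.of (fb e) (IsLocalization.Away.invSelf e.g *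
  (algebraMap ℂ _ (3 * e.e) + 2 * lb e (X - C e.e)))

theorem lr2 (h : IsUnit (Dc.of (fn E) (E.ka (X - C e.e)))) :
    dlg (dcD (fn E) (pnE E)) h = Dc.of (fn E) e.w * Dc.t (fn E) :=
  dlg_eq _ _ (by
    rw [dcD_of, pnE_x, ← mul_assoc, ← map_mul, e.mul_w, mul_comm])

theorem lc2_aux : fn E * (-(algebraMap ℂ E.Cn 2⁻¹) * e.w + algebraMap ℂ E.Cn 2⁻¹ * (cn e *
    e.kb (IsLocalization.Away.invSelf e.g * (algebraMap ℂ _ (3 * e.e) + 2 * lb e (X - C e.e))))) =
    algebraMap ℂ E.Cn 2⁻¹ * pnE E (fn E) + fn E * (-2 * e.w) := by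
  have h1 := congrArg E.ka e.fac
  have h2 := congrArg E.ka (g_eq e)
  have h3 := congrArg E.ka (f'_eq e)
  have h4 := congrArg e.kb (IsLocalization.Away.mul_invSelf (S := Localization.Away e.g) e.g)
  have h5 := e.mul_w
  have h6 : algebraMap ℂ E.Cn 2⁻¹ * 2 = 1 := by
    rw [← map_ofNat (algebraMap ℂ E.Cn) 2, ← map_mul]
    norm_num
  rw [map_mul, e.kb_of, e.aeval_g, map_one] at h4
  rw [map_mul] at h1
  simp only [map_add, map_pow, Algebra.smul_def, map_mul, AlgHom.commutes, map_ofNat] at h2 h3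
  rw [fn, pnE_ka, h3, h1, map_mul, map_add, map_mul e.kb, kb_x, AlgHom.commutes, map_ofNat,
    map_mul (algebraMap ℂ E.Cn), map_ofNat, cn]
  generalize E.ka (X - C e.e) = x at *
  generalize E.ka e.g = g at *
  generalize e.kb (IsLocalization.Away.invSelf e.g) = G at *
  generalize algebraMap ℂ E.Cn 2⁻¹ = c at *
  generalize algebraMap ℂ E.Cn e.d = d at *
  generalize algebraMap ℂ E.Cn e.e = z at *
  generalize e.w = w at *
  linear_combination (- c * x * (3 * z + 2 * d * w)) * h4 + (3 * c * g - 2 * c * d) * h5 +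
    (- 2 * x * g * w) * h6 + 3 * c * h2

theorem lc2 (h : IsUnit (Dc.of (fn E) (cn e) * Dc.t (fn E))) :
    dlg (dcD (fn E) (pnE E)) h =
      (-(2 : ℂ)⁻¹) • (Dc.of (fn E) e.w * Dc.t (fn E)) + (2 : ℂ)⁻¹ • tb e (bE e) :=
  dlg_eq _ _ (by
    have h1 := congrArg (Dc.of (fn E)) (lc2_aux e)
    have h2 := Dc.t_sq (fn E)
    rw [Derivation.leibniz, dcD_of, dcD_t, pn_c, bE, map_mul (tb e), tb_of, tb_t]
    generalize e.kb _ = G at h1 ⊢
    generalize cn e = c at h1 ⊢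
    simp only [map_add, map_mul, map_neg, AlgHom.commutes, map_ofNat, smul_eq_mul,
      Algebra.smul_def] at h1 ⊢
    linear_combination Dc.of (fn E) c * h1 + Dc.of (fn E) c *
      (-(algebraMap ℂ _ 2⁻¹) * Dc.of (fn E) e.w + algebraMap ℂ _ 2⁻¹ * (Dc.of (fn E) c *
        Dc.of (fn E) G) + 2 * Dc.of (fn E) e.w) * h2)

theorem lev2_eq : lam • (Dc.of (fn E) e.w * Dc.t (fn E)) +
    k • ((-(2 : ℂ)⁻¹) • (Dc.of (fn E) e.w * Dc.t (fn E)) + (2 : ℂ)⁻¹ • tb e (bE e)) - 0 =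
    ((-2 * lam + k) * 1) • hbE e + ta E 0 + tb e (((k : ℂ) * 2⁻¹) • bE e) := by
  rw [map_zero, add_zero, sub_zero, hbE, map_smul, ← Int.cast_smul_eq_zsmul ℂ, smul_add, smul_smul,
    smul_smul, smul_smul, ← add_assoc, ← add_smul]
  congr 2
  ring

/-- The curve. -/
def ell2 : EllD ((esv e).T2 lam k) (3 * e.e) e.d 1 := setEll (ell e 0 0) _ _

theorem lev2 : (ell2 e lam k).Lev (-2 * lam + k) := by
  refine ⟨0, ((k : ℂ) * 2⁻¹) • bE e, Eq.trans ?_ ((lev2_eq e lam k).trans ?_)⟩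
  · exact congrArg (fun z : Dc (fn E) => z - 0)
      (congrArg₂ (fun s t : Dc (fn E) => lam • s + k • t) (lr2 e _) (lc2 e _))
  · rw [← hb_eq]
    rfl

/-- **The torus side of the middle statement.** -/
theorem midT (h : FMT) (E : Ell) (e : Rt E) (lam lam' : ℂ) (k k' m m' : ℤ)
    (hm : (2 * lam + m) * (2 * lam' + m') = -1) :
    EQV (um ((V1 e).uk lam k)) (um ((V2 e).uk lam' k')) :=
  ((esv e).eqv1 lam k).trans (EQV.trans (eqv_tm.2 (h _ _ _ _ _ _ _ _ (-m - 4 * k) (-m' - k')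
    (ell e lam k) (ell2 e lam' k') e.d_ne (disc_ne e) one_ne_zero one_ne_zero (lev1 e lam k)
    (lev2 e lam' k') (by push_cast; linear_combination hm))) ((esv e).eqv2 lam' k').symm)

end

end Vale.Agent.P286EU
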