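import Vale.Agent.P286EU.Triv

/-!
# Trivial double covers: unit and counit
-/

namespace Vale.Agent.P286EU

open CategoryTheory
open Vale.Agent.P286.H847 (GD)
open Vale.Agent.P286.H353 Vale.Agent.P286ET Vale.Agent.P286EG Vale.Agent.P286E

noncomputable section

namespace Tv

variable {U : UDat I2} {T : TDat Ix} (v : Tv U T)

/-- The DG functor on cartesian families. -/
def fM : DGF (UM U) (TM T) :=
  show DGF ((UA U).full UCart) ((TA T).full Cart) from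
    v.ff.restr fun X h => @fo_cart _ _ v X h

/-- The DG functor on cartesian families. -/
def gM : DGF (TM T) (UM U) :=
  show DGF ((TA T).full Cart) ((UA U).full UCart) from
    v.gf.restr fun X h => @go_cart _ _ v X h

theorem qis_f {M N : UObj U} (u : UCo M N 0) (hu : UCo.dif 0 1 u = 0) (i : Ix)
    (h : GD.Qis (u.gd hu (o i))) (h' : Co.dif 0 1 (v.fc M N 0 u) = 0) :
    GD.Qis ((v.fc M N 0 u).gd h' i) := by
  intro m
  refine ⟨?_, ?_⟩
  · rintro ⟨x, hx⟩ hm hd ⟨⟨y, hy⟩, hm', e⟩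
    obtain ⟨x', hx', e'⟩ := (h m).1 x hm (congrArg Subtype.val hd) ⟨y, hm', congrArg Subtype.val e⟩
    refine ⟨⟨v.ε i • x', v.ε_mem _⟩, (M.M _).gr_smul _ _ _ hx', Subtype.ext ?_⟩
    change (M.M (o i)).d (v.ε i • x') = x
    rw [RG.d_smul, e', v.ε_fx hx]
  · rintro ⟨y, hy⟩ hm hd
    obtain ⟨x, hx, hdx, y', hy', e⟩ := (h m).2 y hm (congrArg Subtype.val hd)
    refine ⟨⟨v.ε i • x, v.ε_mem _⟩, (M.M _).gr_smul _ _ _ hx, Subtype.ext ?_,
      ⟨v.ε i • y', v.ε_mem _⟩, (N.M _).gr_smul _ _ _ hy', Subtype.ext ?_⟩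
    · change (M.M (o i)).d (v.ε i • x) = 0
      rw [RG.d_smul, hdx, smul_zero]
    · change (N.M (o i)).d (v.ε i • y') = y - u.f (o i) (v.ε i • x)
      rw [RG.d_smul, e, smul_sub, v.ε_fx hy, u.isCo.lin]
      rfl

theorem qis_g {M N : TObj T} (u : Co M N 0) (hu : Co.dif 0 1 u = 0) (i : Ix)
    (h : GD.Qis (u.gd hu i)) (h' : UCo.dif 0 1 (v.gc M N 0 u) = 0) :
    GD.Qis ((v.gc M N 0 u).gd h' (o i)) := by
  intro m
  refine ⟨?_, ?_⟩
  · rintro ⟨⟨x, y⟩, hs⟩ hm hd ⟨⟨⟨x₁, y₁⟩, hs'⟩, hm', e⟩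
    obtain ⟨x', hx', ex⟩ := (h m).1 x hm.1 (congrArg (fun z => z.1.1) hd)
      ⟨x₁, hm'.1, congrArg (fun z => z.1.1) e⟩
    by_cases hb : i = .b
    · exact ⟨⟨(x', M.w i x'), fun _ => rfl⟩, ⟨hx', M.w_gr i _ _ hx'⟩, Subtype.ext (Prod.ext ex
        ((M.w_d i x').trans ((congrArg (M.w i) ex).trans (hs hb).symm)))⟩
    · obtain ⟨y', hy', ey⟩ := (h m).1 y hm.2 (congrArg (fun z => z.1.2) hd)
        ⟨y₁, hm'.2, congrArg (fun z => z.1.2) e⟩
      exact ⟨⟨(x', y'), fun e => absurd e hb⟩, ⟨hx', hy'⟩, Subtype.ext (Prod.ext ex ey)⟩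
  · rintro ⟨⟨x₁, y₁⟩, hs⟩ hm hd
    obtain ⟨x, hx, hdx, x', hx', ex⟩ := (h m).2 x₁ hm.1 (congrArg (fun z => z.1.1) hd)
    by_cases hb : i = .b
    · refine ⟨⟨(x, M.w i x), fun _ => rfl⟩, ⟨hx, M.w_gr i _ _ hx⟩, Subtype.ext (Prod.ext hdx
        ((M.w_d i x).trans ((congrArg (M.w i) hdx).trans (map_zero _)))),
        ⟨(x', N.w i x'), fun _ => rfl⟩, ⟨hx', N.w_gr i _ _ hx'⟩, Subtype.ext (Prod.ext ex
          ((N.w_d i x').trans ((congrArg (N.w i) ex).trans ((map_sub _ _ _).trans ?_))))⟩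
      exact congrArg₂ (fun s t : (N.M i).V => s - t) (hs hb).symm (u.isCo.w i x).symm
    · obtain ⟨y, hy, hdy, y', hy', ey⟩ := (h m).2 y₁ hm.2 (congrArg (fun z => z.1.2) hd)
      exact ⟨⟨(x, y), fun e => absurd e hb⟩, ⟨hx, hy⟩, Subtype.ext (Prod.ext hdx hdy),
        ⟨(x', y'), fun e => absurd e hb⟩, ⟨hx', hy'⟩, Subtype.ext (Prod.ext ex ey)⟩

section Unit

variable (M : UObj U)

/-- The projection to the fixed elements. -/
def pr (i : Ix) : (M.M (o i)).V →ₗ[ℂ] ((v.fo M).M i).V :=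
  LinearMap.codRestrict (v.fx M i) (Algebra.lsmul ℂ ℂ (M.M (o i)).V (v.ε i)) fun _ => v.ε_mem _

theorem pr_val (i : Ix) (x : (M.M (o i)).V) : (v.pr M i x).1 = v.ε i • x := rfl

theorem pr_w (i : Ix) (x : (M.M (o i)).V) :
    (v.fo M).w i (v.pr M i x) = v.pr M i (M.rho (mu i) (M.w (o i) x)) := Subtype.ext (v.muw_ε x)

theorem pr_smul (i : Ix) (r : U.R (o i)) (x : (M.M (o i)).V) :
    v.pr M i (r • x) = v.p i r • v.pr M i x :=
  Subtype.ext ((smul_comm (v.ε i) r x).trans (v.act r (v.ε_mem x)).symm)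

theorem pr_rho {i k : Ix} (u : i ⟶ k) (x : (M.M (o i)).V) :
    (v.fo M).rho u (v.pr M i x) = v.pr M k (M.rho (ar u) x) := Subtype.ext (v.ε_rho u x)

/-- The unit. -/
def un (i : Ix) : (M.M (o i)).V →ₗ[ℂ] (v.gm (v.fo M) i).V :=
  LinearMap.codRestrict (s2 (v.fo M) i) ((v.pr M i).prod (v.pr M i ∘ₗ M.w (o i))) fun x hb => by
    subst hb
    refine Eq.trans ?_ (v.pr_w M .b x).symm
    rw [mu_b, M.rho_id]
    rfl

theorem un_rho {i k : Ix} (α : H2 i k) (x : (M.M (o i)).V) :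
    (v.pr M k (M.rho α x), v.pr M k (M.w (o k) (M.rho α x))) =
      r2 (v.fo M) α (v.pr M i x, v.pr M i (M.w (o i) x)) := by
  by_cases h : sgn α = 1
  · refine Eq.trans ?_ (r2_one (v.fo M) h _ _).symm
    rw [pr_rho, pr_rho, ← eq_ar α h, M.rho_w]
  · refine Eq.trans ?_ (r2_ne (v.fo M) h _ _).symm
    rw [pr_rho, pr_rho, pr_w, pr_w, M.rho_w (ar _), M.w_w, M.rho_w (mu k), ← M.rho_comp,
      ← eq_ar_mu α h]

theorem un_e (i : Ix) (x : (M.M (o i)).V) :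
    v.un M i (M.e (o i) x) = (v.go (v.fo M)).e (o i) (v.un M i x) :=
  Subtype.ext (Prod.ext (Subtype.ext (M.e_smul (o i) (v.ε i) x).symm) (Subtype.ext (by
    change v.ε i • M.w (o i) (M.e (o i) x) = - M.e (o i) (v.ε i • M.w (o i) x)
    rw [M.w_e, M.e_smul, smul_neg])))

theorem un_co : IsUCo M (v.go (v.fo M)) 0 (fun i : Ix => v.un M i) where
  deg (i : Ix) m x hx := by
    rw [add_zero]
    exact ⟨(M.M (o i)).gr_smul _ _ _ hx, (M.M (o i)).gr_smul _ _ _ (M.w_gr _ _ _ hx)⟩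
  lin (i : Ix) (r : U.R (o i)) x := Subtype.ext (Prod.ext (v.pr_smul M i r x)
    ((congrArg (v.pr M i) (M.w_smul (o i) r x)).trans (v.pr_smul M i _ _)))
  D (i : Ix) (x : (M.M (o i)).V) := Subtype.ext (Prod.ext (Subtype.ext (v.D_ε x).symm)
    (Subtype.ext (by
      change v.ε i • M.w (o i) (M.D (o i) x) = - M.D (o i) (v.ε i • M.w (o i) x)
      rw [M.w_D, D_ε, smul_neg])))
  e (i : Ix) (x : (M.M (o i)).V) := (v.un_e M i x).trans (one_smul ℤ _).symm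
  w (i : Ix) (x : (M.M (o i)).V) := Subtype.ext (Prod.ext rfl (congrArg (v.pr M i) (M.w_w _ x)))
  rho {i k : Ix} (α : H2 i k) x := Subtype.ext (v.un_rho M α x)

theorem un_d (i : Ix) (x : (M.M (o i)).V) :
    v.un M i ((M.M (o i)).d x) = (v.gm (v.fo M) i).d (v.un M i x) :=
  Subtype.ext (Prod.ext (Subtype.ext ((M.M (o i)).d_smul _ x).symm) (Subtype.ext (by
    change v.ε i • M.w (o i) ((M.M (o i)).d x) = (M.M (o i)).d (v.ε i • M.w (o i) x)
    rw [RG.d_smul, M.w_d])))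

theorem ε_w {i : Ix} (hb : i ≠ .b) {x : (M.M (o i)).V} (hx : x ∈ v.fx M i) :
    v.ε i • M.w (o i) x = 0 := by
  have h1 := v.w_ε hb
  have h2 : v.ε i * v.ε i = v.ε i := by
    conv_lhs => rw [← smul_eq_mul]; lhs; rw [ε]
    rw [smul_assoc, smul_eq_mul, add_mul, one_mul, τ_ε, half_add]
  have h3 : v.ε i * U.w _ (v.ε i) = 0 := by linear_combination v.ε i * h1 - h2
  rw [← v.ε_fx hx, M.w_smul, smul_smul, h3, zero_smul]

theorem un_qis (i : Ix) (u : GD.Hom (M.M (o i)).toGD (v.gm (v.fo M) i).toGD)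
    (hu : u.f = v.un M i) : GD.Qis u := by
  by_cases hb : i = .b
  · subst hb
    refine qis_inv u (fun z => z.1.1.1) (fun _ _ h => h.1) (fun x y e => ?_) fun z => ?_
    · rw [hu] at e
      have h1 : v.ε .b • x = v.ε .b • y := congrArg (fun z => z.1.1.1) e
      rwa [ε_b, one_smul, one_smul] at h1
    · rw [hu]
      have h1 : v.pr M .b z.1.1.1 = z.1.1 := Subtype.ext (v.ε_fx z.1.1.2)
      exact Subtype.ext (Prod.ext h1 (((v.un M .b _).2 rfl).trans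
        ((congrArg ((v.fo M).w .b) h1).trans (z.2 rfl).symm)))
  · refine qis_inv u (fun z => z.1.1.1 + M.w (o i) z.1.2.1)
      (fun _ _ h => add_mem h.1 (M.w_gr _ _ _ h.2)) ?_ ?_
    · rw [hu, injective_iff_map_eq_zero]
      intro x e
      have h1 : v.ε i • x = 0 := congrArg (fun z => z.1.1.1) e
      have h2 : v.ε i • M.w (o i) x = 0 := congrArg (fun z => z.1.2.1) e
      have h3 := congrArg (M.w (o i)) h2
      rw [M.w_smul, M.w_w, map_zero] at h3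
      rw [← one_smul (U.R (o i)) x, ← v.w_ε hb, add_smul, h1, h3, add_zero]
    · rintro ⟨⟨⟨x, hx⟩, ⟨y, hy⟩⟩, hs⟩
      rw [hu]
      refine Subtype.ext (Prod.ext (Subtype.ext ?_) (Subtype.ext ?_))
      · change v.ε i • (x + M.w (o i) y) = x
        rw [smul_add, v.ε_fx hx, v.ε_w M hb hy, add_zero]
      · change v.ε i • M.w (o i) (x + M.w (o i) y) = y
        rw [map_add, M.w_w, smul_add, v.ε_fx hy, v.ε_w M hb hx, zero_add]

end Unit

section Counit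

variable (M : TObj T)

/-- The counit. -/
def co (i : Ix) : (v.fm (v.go M) i).V →ₗ[ℂ] (M.M i).V :=
  LinearMap.fst ℂ _ _ ∘ₗ (s2 M i).subtype ∘ₗ (v.fx (v.go M) i).subtype

theorem co_co : IsCo (v.fo (v.go M)) M 0 (v.co M) where
  deg i m x hx := by
    rw [add_zero]
    exact hx.1
  lin i r x := congrArg (· • v.co M i x) (v.p_j i r)
  D _ _ := rfl
  e _ _ := (one_smul ℤ _).symm
  w i x := congrArg Prod.fst (r2_mu M ((v.go M).w (o i) x.1).2)
  rho {i k} a x := by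
    change v.p k (v.ε k) • (r2 M (ar a) (x.1.1.1, x.1.1.2)).1 = _
    rw [p_ε, one_smul]
    exact congrArg Prod.fst (r2_ar M a _ _)

theorem co_qis (i : Ix) (u : GD.Hom (v.fm (v.go M) i).toGD (M.M i).toGD) (hu : u.f = v.co M i) :
    GD.Qis u := by
  by_cases hb : i = .b
  · subst hb
    refine qis_inv u (fun x => ⟨⟨(x, M.w .b x), fun _ => rfl⟩, v.mem_b (M := v.go M) _⟩)
      (fun _ _ h => ⟨h, M.w_gr _ _ _ h⟩) (fun x y e => ?_) fun z => by rw [hu]; rfl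
    rw [hu] at e
    exact Subtype.ext (Subtype.ext (Prod.ext e ((x.1.2 rfl).trans
      ((congrArg (M.w .b) e).trans (y.1.2 rfl).symm))))
  · have hp : v.p i (U.w _ (v.τ i)) = -1 := by rw [v.w_τ i hb, map_neg, v.p_τ]
    refine qis_inv u (fun x => ⟨⟨(x, 0), fun e => absurd e hb⟩, Subtype.ext (Prod.ext
      ((congrArg (· • x) (v.p_τ i)).trans (one_smul _ x)) (smul_zero (A := (M.M i).V) (v.p i (U.w _ (v.τ i)))))⟩)
      (fun _ _ h => ⟨h, zero_mem _⟩) ?_ fun z => by rw [hu]; rfl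
    rw [hu, injective_iff_map_eq_zero]
    rintro ⟨⟨⟨x, y⟩, hs⟩, hx⟩ e
    change (M.M i).V at x y
    have h1 : v.p i (U.w _ (v.τ i)) • y = y := congrArg (fun z => z.1.2) hx
    rw [hp, neg_smul, one_smul] at h1
    have h2 : y = 0 := by rw [← half_add y, add_eq_zero_iff_neg_eq.2 h1, smul_zero]
    exact Subtype.ext (Subtype.ext (Prod.ext e h2))

end Counit

include v in
/-- **Trivial double covers.** -/
theorem eqv : EQV (um U) (tm T) :=
  ⟨v.fM, v.gM, fun _ _ a h i => v.qis_f _ (zf_cl a) i (h (o i)) _,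
    fun _ _ a h i => v.qis_g _ (zf_cl a) i (h i) _,
    Zig.symm (NatW.zig ⟨natT (Φ := DGF.id _) (Ψ := v.fM.comp v.gM)
      (fun X => UCo.mk _ (v.un_co X.1)) (fun X => (UCo.dif_zero_iff _).2 (v.un_d X.1))
      (fun f _ => UCo.ext' fun (i : Ix) x => Subtype.ext (Prod.ext
        (Subtype.ext ((UCo.isCo f).lin (o i) (v.ε i) x).symm)
        (Subtype.ext ((congrArg (v.ε i • ·) ((UCo.isCo f).w (o i) x).symm).trans
          ((UCo.isCo f).lin (o i) (v.ε i) _).symm)))),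
      fun X i => v.un_qis (ob X).1 i _ rfl⟩),
    NatW.zig ⟨natT (Φ := v.gM.comp v.fM) (Ψ := DGF.id _)
      (fun X => Co.mk _ (v.co_co X.1)) (fun _ => (Co.dif_zero_iff _).2 fun _ _ => rfl)
      (fun _ _ => rfl), fun X i => v.co_qis (ob X).1 i _ rfl⟩⟩

end Tv

end

end Vale.Agent.P286EU
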