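import Vale.Agent.P286EU.Sv
import Vale.Agent.P286EU.Triv2
import Vale.Agent.P286ET7.Main

/-!
# The two chart data of a star
-/

namespace Vale.Agent.P286EU

open CategoryTheory
open Vale.Agent.P286ET Vale.Agent.P286E

noncomputable section

theorem away_id (A : Type) [CommRing A] [Algebra ℂ A] : IsAway (AlgHom.id ℂ A) 1 :=
  ⟨isUnit_one, fun y => ⟨0, y, by rw [pow_zero, one_mul]; rfl⟩,
    fun x hx => ⟨0, (congrArg (_ * ·) hx).trans (mul_zero _)⟩⟩

/-- The same diagram with a cocycle concentrated on one arrow. -/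
def setE (T : TDat Ix) (z : T.R .n) (hz : T.w .n z = - z) : TDat Ix :=
  { T with
    eta := fun {i j} _ => sel z i j
    eta_id := sel_self z
    eta_comp := sel_comp z
    w_eta := fun {i j} _ => w_sel hz i j }

/-- The same curve. -/
def setEll {T : TDat Ix} {p q ν : ℂ} (E : EllD T p q ν) (z : T.R .n) (hz : T.w .n z = - z) :
    EllD (setE T z hz) p q ν :=
  ⟨E.x, E.y, E.u, E.t, E.gi, E.eqn, E.gen_a, E.free, E.away_a, E.gi_mul, E.gen_b, E.inj_b, E.tau_u,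
    E.tau_t, E.dd_x, E.dd_y, E.w_x, E.w_y⟩

theorem VF.lz_comp {I : Type} [SmallCategory I] {D : CD I} (V : VF D) (lam : ℂ) (k : ℤ) {i j l : I}
    (α : i ⟶ j) (β : j ⟶ l) :
    V.lz lam k (α ≫ β) = D.c β * D.κ β (V.lz lam k α) + V.lz lam k β := by
  simp only [VF.lz, V.lr_comp, V.lc_comp, map_add, map_mul, Algebra.smul_def, AlgHom.commutes,
    eq_intCast, map_intCast]
  ring

theorem VF.lz_zero {I : Type} [SmallCategory I] {D : CD I} (V : VF D) (lam : ℂ) (k : ℤ) {i j : I}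
    (α : i ⟶ j) (h : D.r α = 1) (h' : V.pd j (D.c α) = 0) : V.lz lam k α = 0 := by
  rw [VF.lz, V.lr_one α h, V.lc_zero α h', smul_zero, smul_zero, add_zero]

section One

variable {B B' : Type} [CommRing B] [Algebra ℂ B] [CommRing B'] [Algebra ℂ B']

/-- The projection `t ↦ 1` of the trivial double cover. -/
def p1 (B : Type) [CommRing B] [Algebra ℂ B] : Dc (1 : B) →ₐ[ℂ] B :=
  Dc.lift 1 (AlgHom.id ℂ B) 1 (one_pow 2)

theorem p1_of (z : B) : p1 B (Dc.of 1 z) = z := Dc.lift_of _ _ _ _ z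

theorem p1_t : p1 B (Dc.t 1) = 1 := Dc.lift_t _ _ _ _

theorem t1_sq : Dc.t (1 : B) * Dc.t 1 = 1 := by rw [← sq, Dc.t_sq, map_one]

theorem j_p1 (r : Dc (1 : B)) : (1 + Dc.t 1) * Dc.of 1 (p1 B r) = (1 + Dc.t 1) * r := by
  induction r using dc_ind with
  | h α β =>
    simp only [map_add, map_mul, p1_of, p1_t, mul_one]
    linear_combination (- Dc.of 1 β) * t1_sq (B := B)

theorem dcD_t1 (q : Derivation ℂ B B) : dcD 1 q (Dc.t 1) = 0 := by
  rw [dcD_t, Derivation.map_one_eq_zero, map_zero, smul_zero]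

theorem p1_dd (q : Derivation ℂ B B) (r : Dc (1 : B)) : p1 B (dcD 1 q r) = q (p1 B r) := by
  induction r using dc_ind with
  | h α β =>
    simp only [map_add, map_mul, Derivation.leibniz, smul_eq_mul, dcD_of, dcD_t1, p1_of, p1_t,
      mul_one, one_mul, mul_zero, zero_add]

omit [Algebra ℂ B] in
theorem cast_m1 : (((-1 : ℤˣ) : ℤ) : B) = -1 := by simp

omit [Algebra ℂ B] in
theorem cast_p1 : (((1 : ℤˣ) : ℤ) : B) = 1 := by simp

theorem mu_t1 (κ : B →ₐ[ℂ] B) (h : κ 1 = (((-1 : ℤˣ) : ℤ) : B) ^ 2 * 1) :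
    dcM κ _ h (dcW 1 (Dc.t 1)) = Dc.t 1 := by
  rw [dcW_t, map_neg, dcM_t, cast_m1, map_neg, map_one (Dc.of (1 : B)), neg_one_mul, neg_neg]

theorem p1_mu (κ : B →ₐ[ℂ] B) (h : κ 1 = (((-1 : ℤˣ) : ℤ) : B) ^ 2 * 1) (r : Dc (1 : B)) :
    p1 B (dcM κ _ h r) = κ (p1 B (dcW 1 r)) := by
  induction r using dc_ind with
  | h α β =>
    simp only [map_add, map_mul, map_neg, map_one, dcM_of, dcM_t, dcW_of, dcW_t, p1_of, p1_t,
      cast_m1, mul_one]

theorem p1_an (κ : B →ₐ[ℂ] B') (h : κ 1 = (((1 : ℤˣ) : ℤ) : B') ^ 2 * 1) (r : Dc (1 : B)) :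
    p1 B' (dcM κ _ h r) = κ (p1 B r) := by
  induction r using dc_ind with
  | h α β => simp only [map_add, map_mul, dcM_of, dcM_t, p1_of, p1_t, cast_p1, mul_one]

theorem an_t1 (κ : B →ₐ[ℂ] B') (h : κ 1 = (((1 : ℤˣ) : ℤ) : B') ^ 2 * 1) :
    dcM κ _ h (Dc.t 1) = Dc.t 1 := by
  rw [dcM_t, cast_p1, map_one (Dc.of (1 : B')), one_mul]

theorem map_eq (f : B) (φ : B →ₐ[ℂ] B') (h : φ f = 1 ^ 2 * φ f) : Dc.map f φ 1 = dcM φ 1 h :=
  Dc.ext (fun a => by rw [Dc.map_of, dcM_of]) (by rw [Dc.map_t, dcM_t, cast_p1, map_one])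

theorem p1_bn {f : B} {g : B'} (κ : B →ₐ[ℂ] B') (c : B') (h : κ f = c ^ 2 * g)
    (h' : ((Dc.of g).comp κ) f = (Dc.of g c * Dc.t g) ^ 2 * 1) (r : Dc f) :
    p1 (Dc g) (dcM ((Dc.of g).comp κ) _ h' r) = dcM κ c h r := by
  induction r using dc_ind with
  | h α β =>
    simp only [map_add, map_mul, dcM_of, dcM_t, p1_of, p1_t, mul_one, AlgHom.comp_apply]

theorem frl_dc {κ : B →ₐ[ℂ] B'} {σ : B} (h : IsAway κ σ) (g : B') :
    FrL ((Dc.of g).comp κ).toRingHom σ ![1, Dc.t g] where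
  unit := h.unit.map (Dc.of g)
  surj y := by
    obtain ⟨α, β, rfl⟩ := dc_rep y
    obtain ⟨n, x, e⟩ := h.surj α
    obtain ⟨m, x', e'⟩ := h.surj β
    refine ⟨m + n, ![σ ^ m * x, σ ^ n * x'], ?_⟩
    rw [Fin.sum_univ_two]
    change Dc.of g (κ σ) ^ (m + n) * _ =
      Dc.of g (κ (σ ^ m * x)) * 1 + Dc.of g (κ (σ ^ n * x')) * Dc.t g
    simp only [map_mul, map_pow, ← e, ← e']
    ring
  ker x e := by
    rw [Fin.sum_univ_two] at e
    change Dc.of g (κ (x 0)) * 1 + Dc.of g (κ (x 1)) * Dc.t g = 0 at e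
    rw [mul_one] at e
    obtain ⟨n, e0⟩ := h.ker _ (dc_free e).1
    obtain ⟨m, e1⟩ := h.ker _ (dc_free e).2
    exact ⟨m + n, Fin.forall_fin_two.2 ⟨by rw [pow_add, mul_assoc, e0, mul_zero],
      by rw [add_comm, pow_add, mul_assoc, e1, mul_zero]⟩⟩

end One

namespace SV

variable {S : Star} (W : SV S) (lam : ℂ) (k : ℤ)

/-- The elements which are inverted. -/
def sig : ∀ i _ : Ix, S.C i
  | .a, .n => W.sa
  | .b, .n => W.sb
  | _, _ => 1

theorem sig_away {i j : Ix} (h : i ≤ j) : IsAway (S.κ i j h) (W.sig i j) := by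
  rcases h with rfl | rfl <;> cases i
  · exact away_id S.Ca
  · exact away_id S.Cb
  · exact away_id S.Cn
  · exact W.away_a
  · exact W.away_b
  · exact away_id S.Cn

/-- The first datum is a diagram of localisations. -/
def aw : Aw (W.V1.uk lam k) where
  σ {i j} _ := W.sig i j
  base a := W.sig_away (leOfHom a)
  top a := dcM_away _ _ (S.cd.κ_f a) (S.cd.c_unit a) (W.sig_away (leOfHom a))

/-- The cocycle of the second datum. -/
def z2 : Dc (S.ka S.fa) := W.V2.lz lam k (ar (Ix.tn .b))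

theorem lz_mu (i : Ix) : W.V2.lz lam k (mu i) = 0 := by
  cases i
  · exact W.V2.lz_zero lam k _ rfl (Derivation.map_intCast (dcD S.fa W.pa) _)
  · exact W.V2.lz_zero lam k _ rfl (Derivation.map_one_eq_zero W.pb)
  · exact W.V2.lz_zero lam k _ rfl (Derivation.map_intCast (dcD (S.ka S.fa) W.pn) _)

theorem w_z2 : dcW (S.ka S.fa) (W.z2 lam k) = - W.z2 lam k := by
  have h : W.z2 lam k = (((-1 : ℤˣ) : ℤ) : Dc (S.ka S.fa)) * dcW (S.ka S.fa) (W.z2 lam k) + 0 :=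
    (W.V2.lz_comp lam k (ar (Ix.tn .b)) (mu .n)).trans (congrArg (_ + ·) (W.lz_mu lam k .n))
  rw [cast_m1] at h
  linear_combination h

/-- The diagram which belongs to the second datum. -/
def T2 : TDat Ix := setE (W.aw 0 0).T (W.z2 lam k) (W.w_z2 lam k)

/-- The inclusions. -/
def jj : ∀ i : Ix, (W.T2 lam k).R i →ₐ[ℂ] (W.V2.uk lam k).R (o i)
  | .a => Dc.of (1 : Dc S.fa)
  | .b => AlgHom.id ℂ (Dc S.fb)
  | .n => Dc.of (1 : Dc (S.ka S.fa))

/-- The projections. -/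
def pp : ∀ i : Ix, (W.V2.uk lam k).R (o i) →ₐ[ℂ] (W.T2 lam k).R i
  | .a => P286EU.p1 (Dc S.fa)
  | .b => AlgHom.id ℂ (Dc S.fb)
  | .n => P286EU.p1 (Dc (S.ka S.fa))

/-- The square roots of one. -/
def tt : ∀ i : Ix, (W.V2.uk lam k).R (o i)
  | .a => Dc.t (1 : Dc S.fa)
  | .b => (1 : Dc S.fb)
  | .n => Dc.t (1 : Dc (S.ka S.fa))

theorem ka_f : S.ka S.fa = 1 ^ 2 * S.ka S.fa := by rw [one_pow, one_mul]

theorem away_map : IsAway (Dc.map S.fa S.ka 1) (Dc.of S.fa W.sa) := by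
  rw [map_eq S.fa S.ka ka_f]
  exact dcM_away S.ka 1 ka_f isUnit_one W.away_a

theorem pp_id (i : Ix) (r : (W.V2.uk lam k).R (o i)) :
    W.pp lam k i ((W.V2.uk lam k).tau (ar (𝟙 i)) r) = (W.T2 lam k).tau (𝟙 i) (W.pp lam k i r) := by
  rw [ar_id, UDat.tau_id, TDat.tau_id]

theorem pp_eta_id (i : Ix) :
    W.pp lam k i ((W.V2.uk lam k).eta (ar (𝟙 i))) = (W.T2 lam k).eta (𝟙 i) := by
  rw [ar_id, UDat.eta_id, TDat.eta_id, map_zero]

theorem eta_zero {i j : I2} (α : i ⟶ j) (h : W.V2.lz lam k α = 0) : (W.V2.uk lam k).eta α = 0 :=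
  (congrArg (fun z => Dc.of (S.cd2.f j) z * Dc.t (S.cd2.f j)) h).trans
    ((congrArg (· * Dc.t (S.cd2.f j)) (map_zero _)).trans (zero_mul _))

/-- The second datum is a trivial double cover on the charts `a` and `n`. -/
def tv : Tv (W.V2.uk lam k) (W.T2 lam k) where
  j := W.jj lam k
  p := W.pp lam k
  τ := W.tt lam k
  τ_sq i := by
    cases i
    · exact t1_sq (B := Dc S.fa)
    · exact mul_one (1 : Dc S.fb)
    · exact t1_sq (B := Dc (S.ka S.fa))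
  p_j i z := by
    cases i
    · exact p1_of (B := Dc S.fa) z
    · rfl
    · exact p1_of (B := Dc (S.ka S.fa)) z
  p_τ i := by
    cases i
    · exact p1_t (B := Dc S.fa)
    · rfl
    · exact p1_t (B := Dc (S.ka S.fa))
  j_p i r := by
    cases i
    · have h := @j_p1 (Dc S.fa) _ _
      exact h r
    · rfl
    · have h := @j_p1 (Dc (S.ka S.fa)) _ _
      exact h r
  dd_τ i := by
    cases i
    · exact dcD_t1 (dcD S.fa W.pa)
    · exact Derivation.map_one_eq_zero (dcD S.fb W.pb)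
    · exact dcD_t1 (dcD (S.ka S.fa) W.pn)
  p_dd i r := by
    cases i
    · exact p1_dd (dcD S.fa W.pa) r
    · rfl
    · exact p1_dd (dcD (S.ka S.fa) W.pn) r
  τ_b := rfl
  w_τ i h := by
    cases i
    · exact dcW_t (1 : Dc S.fa)
    · exact absurd rfl h
    · exact dcW_t (1 : Dc (S.ka S.fa))
  mu_τ i := by
    cases i
    · exact mu_t1 (Dc.sg S.fa (-1)) (S.cd2.κ_f (mu .a))
    · exact (congrArg _ (map_one (dcW S.fb))).trans (map_one _)
    · exact mu_t1 (Dc.sg (S.ka S.fa) (-1)) (S.cd2.κ_f (mu .n))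
  p_tau u := hom_ind (P := fun {i j} u => ∀ r, W.pp lam k j ((W.V2.uk lam k).tau (ar u) r) =
      (W.T2 lam k).tau u (W.pp lam k i r)) (W.pp_id lam k)
    (fun r => (p1_an (Dc.map S.fa S.ka 1) (S.cd2.κ_f (ar (Ix.tn .a))) r).trans
      (AlgHom.congr_fun (map_eq S.fa S.ka ka_f) _))
    (p1_bn S.kb S.c S.kb_f S.f_bn) u
  p_mu i r := by
    cases i
    · exact p1_mu (Dc.sg S.fa (-1)) (S.cd2.κ_f (mu .a)) r
    · have h := dcW_W S.fb
      exact ((W.V2.uk lam k).tau_id (o .b) r).trans (h r).symm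
    · exact p1_mu (Dc.sg (S.ka S.fa) (-1)) (S.cd2.κ_f (mu .n)) r
  p_eta u := hom_ind (P := fun {_ j} u => W.pp lam k j ((W.V2.uk lam k).eta (ar u)) =
      (W.T2 lam k).eta u) (W.pp_eta_id lam k)
    ((congrArg (W.pp lam k .n) (W.eta_zero lam k _ (W.V2.lz_zero lam k (ar (Ix.tn .a)) rfl
      (Derivation.map_intCast (dcD (S.ka S.fa) W.pn) _)))).trans (map_zero _))
    ((map_mul (P286EU.p1 (Dc (S.ka S.fa))) _ _).trans
      ((congrArg₂ (· * ·) (p1_of _) p1_t).trans (mul_one _))) u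
  eta_mu i := W.eta_zero lam k _ (W.lz_mu lam k i)
  σa := Dc.of S.fa W.sa
  away_a := W.away_map
  p_σa := p1_of (B := Dc S.fa) _
  pw_σa := (congrArg (P286EU.p1 (Dc S.fa)) (dcW_of _ _)).trans (p1_of _)
  τ_a := an_t1 (Dc.map S.fa S.ka 1) (S.cd2.κ_f (ar (Ix.tn .a)))
  σb := W.sb
  tn := Dc.t (S.ka S.fa)
  frl := frl_dc W.away_b _
  p_σb := (rfl : Dc.of S.fb W.sb = Dc.of S.fb W.sb)
  w_σb := dcW_of S.fb W.sb
  w_tn := dcW_of (1 : Dc (S.ka S.fa)) _
  mu_tn := (dcM_of (Dc.sg (S.ka S.fa) (-1)) _ (S.cd2.κ_f (mu .n)) _).trans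
    ((congrArg (Dc.of 1) (dcW_t (S.ka S.fa))).trans (map_neg _ _))
  tn_unit := Dc.t_unit S.f_unit
  κ_id := S.cd2.κ_id
  κ_comp := S.cd2.κ_comp

theorem eqv1 : EQV (um (W.V1.uk lam k)) (tm (W.aw lam k).T) := (W.aw lam k).eqv

theorem eqv2 : EQV (um (W.V2.uk lam k)) (tm (W.T2 lam k)) := (W.tv lam k).eqv

end SV

end

end Vale.Agent.P286EU
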