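import Vale.Agent.P286EU.Tv

/-!
# Trivial double covers: the inverse functor
-/

namespace Vale.Agent.P286EU

open CategoryTheory
open Vale.Agent.P286.H847 (GD)
open Vale.Agent.P286.H353 Vale.Agent.P286ET Vale.Agent.P286EG Vale.Agent.P286E

noncomputable section

/-- Two copies. -/
def gd2 (G : GD) : GD where
  V := G.V × G.V
  d := G.d.prodMap G.d
  dd x := Prod.ext (G.dd x.1) (G.dd x.2)
  gr m := (G.gr m).prod (G.gr m)
  dgr m x hx := ⟨G.dgr m x.1 hx.1, G.dgr m x.2 hx.2⟩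

section

variable {T : TDat Ix} (M : TObj T)

/-- The action of a sign on two copies. -/
def sw (i : Ix) (ε : ℤˣ) : (M.M i).V × (M.M i).V →ₗ[ℂ] (M.M i).V × (M.M i).V :=
  if ε = 1 then LinearMap.id else
    ((M.w i).comp (LinearMap.snd ℂ _ _)).prod ((M.w i).comp (LinearMap.fst ℂ _ _))

theorem sw_one (i : Ix) (z : (M.M i).V × (M.M i).V) : sw M i 1 z = z := by
  rw [sw, if_pos rfl]
  rfl

theorem sw_ne (i : Ix) {ε : ℤˣ} (h : ¬ ε = 1) (z : (M.M i).V × (M.M i).V) :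
    sw M i ε z = (M.w i z.2, M.w i z.1) := by
  rw [sw, if_neg h]
  rfl

theorem sw_fix (i : Ix) (ε : ℤˣ) {z : (M.M i).V × (M.M i).V} (h : z.2 = M.w i z.1) :
    sw M i ε z = z := by
  by_cases e : ε = 1
  · rw [e, sw_one]
  · rw [sw_ne M i e, h, M.w_w, ← h]

theorem sw_mul (i : Ix) (ε η : ℤˣ) (z : (M.M i).V × (M.M i).V) :
    sw M i (ε * η) z = sw M i ε (sw M i η z) := by
  rcases Int.units_eq_one_or ε with rfl | rfl
  · rw [one_mul, sw_one]
  · rcases Int.units_eq_one_or η with rfl | rfl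
    · rw [mul_one, sw_one]
    · rw [neg_mul_neg, one_mul, sw_one, sw_ne M i (by decide), sw_ne M i (by decide), M.w_w, M.w_w]

theorem sw_rho {i k : Ix} (u : i ⟶ k) (ε : ℤˣ) (z : (M.M i).V × (M.M i).V) :
    (M.rho u).prodMap (M.rho u) (sw M i ε z) = sw M k ε ((M.rho u).prodMap (M.rho u) z) := by
  by_cases e : ε = 1
  · rw [e, sw_one, sw_one]
  · rw [sw_ne M i e, sw_ne M k e]
    exact Prod.ext (M.rho_w u _) (M.rho_w u _)

/-- The transition maps on two copies. -/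
def r2 {i k : Ix} (α : H2 i k) : (M.M i).V × (M.M i).V →ₗ[ℂ] (M.M k).V × (M.M k).V :=
  sw M k (sgn α) ∘ₗ (M.rho (und α)).prodMap (M.rho (und α))

theorem r2_one {i k : Ix} {α : H2 i k} (h : sgn α = 1) (x y : (M.M i).V) :
    r2 M α (x, y) = (M.rho (und α) x, M.rho (und α) y) := by
  rw [r2, h, LinearMap.comp_apply, sw_one]
  rfl

theorem r2_ne {i k : Ix} {α : H2 i k} (h : ¬ sgn α = 1) (x y : (M.M i).V) :
    r2 M α (x, y) = (M.w k (M.rho (und α) y), M.w k (M.rho (und α) x)) := by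
  rw [r2, LinearMap.comp_apply, sw_ne M k h]
  rfl

theorem r2_fix {i k : Ix} (α : H2 i k) {x y : (M.M i).V} (h : y = M.w i x) :
    r2 M α (x, y) = (M.rho (und α) x, M.rho (und α) y) :=
  sw_fix M k _ (z := (M.rho (und α) x, M.rho (und α) y)) (by rw [h, M.rho_w])

theorem r2_ar {i k : Ix} (u : i ⟶ k) (x y : (M.M i).V) :
    r2 M (ar u) (x, y) = (M.rho u x, M.rho u y) := by
  rw [r2_one M (sgn_ar u), Ix.hom_eq (und (ar u)) u]

/-- The pairs which are allowed on the chart `i`. -/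
def s2 (i : Ix) : Submodule ℂ ((M.M i).V × (M.M i).V) where
  carrier := {z | i = .b → z.2 = M.w i z.1}
  add_mem' {x y} hx hy h := by
    rw [Prod.fst_add, Prod.snd_add, map_add, hx h, hy h]
  zero_mem' _ := (map_zero _).symm
  smul_mem' c x hx h := by
    rw [Prod.smul_fst, Prod.smul_snd, map_smul, hx h]

theorem r2_mu {i : Ix} {x y : (M.M i).V} (h : (x, y) ∈ s2 M i) :
    r2 M (mu i) (x, y) = (M.w i y, M.w i x) := by
  have e : ∀ z, M.rho (und (mu i)) z = z := fun z => by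
    rw [Ix.hom_eq (und (mu i)) (𝟙 i), M.rho_id]
  by_cases hb : i = .b
  · have h1 : y = M.w i x := h hb
    rw [r2_fix M _ h1, e, e, h1, M.w_w]
  · rw [r2_ne M (by rw [sgn_mu hb]; decide), e, e]

theorem r2_comp {i k l : Ix} (α : H2 i k) (β : H2 k l) {x y : (M.M i).V} (h : (x, y) ∈ s2 M i) :
    r2 M (α ≫ β) (x, y) = r2 M β (r2 M α (x, y)) := by
  have e : ∀ z, M.rho (und (α ≫ β)) z = M.rho (und β) (M.rho (und α) z) := fun z => by
    rw [Ix.hom_eq (und (α ≫ β)) (und α ≫ und β), M.rho_comp]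
  rcases sgn_comp α β with hb | hs
  · have h1 : y = M.w i x := h hb
    rw [r2_fix M _ h1, r2_fix M _ h1, r2_fix M _ (by rw [h1, M.rho_w]), e, e]
  · simp only [r2, LinearMap.comp_apply]
    rw [hs, sw_mul, sw_rho]
    exact congrArg (fun z => sw M l _ (sw M l _ z)) (Prod.ext (e x) (e y))

end

namespace Tv

variable {U : UDat I2} {T : TDat Ix} (v : Tv U T)

theorem p_w_b {i : Ix} (h : i = .b) (r : U.R (o i)) :
    v.p i (U.w (o i) r) = T.w i (v.p i r) := by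
  subst h
  have h1 := v.p_mu .b (U.w _ r)
  rwa [mu_b, U.tau_id, U.w_w] at h1

theorem p_tau_one {i k : Ix} {α : H2 i k} (h : sgn α = 1) (r : U.R (o i)) :
    v.p k (U.tau α r) = T.tau (und α) (v.p i r) := by
  rw [← v.p_tau, ← eq_ar α h]

theorem p_tau_ne {i k : Ix} {α : H2 i k} (h : ¬ sgn α = 1) (r : U.R (o i)) :
    v.p k (U.tau α r) = T.w k (T.tau (und α) (v.p i (U.w (o i) r))) := by
  rw [← v.p_tau, U.tau_w, ← v.p_mu, ← U.tau_comp, ← eq_ar_mu α h]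

theorem p_eta' {i k : Ix} (α : H2 i k) : v.p k (U.eta α) = T.eta (und α) := by
  by_cases h : sgn α = 1
  · rw [← v.p_eta, ← eq_ar α h]
  · have h1 := U.eta_comp (ar (und α)) (mu k)
    rw [← eq_ar_mu α h] at h1
    rw [h1, v.eta_mu, add_zero, v.p_mu, U.w_eta, map_neg, v.p_eta, map_neg, T.w_eta, neg_neg]

variable (M : TObj T)

/-- The action on two copies. -/
def a2 (i : Ix) : U.R (o i) →ₐ[ℂ] Module.End ℂ ((M.M i).V × (M.M i).V) :=
  (LinearMap.prodMapAlgHom ℂ _ _).comp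
    (((Algebra.lsmul ℂ ℂ (M.M i).V).comp (v.p i)).prod
      ((Algebra.lsmul ℂ ℂ (M.M i).V).comp ((v.p i).comp (U.w (o i)))))

theorem a2_apply (i : Ix) (r : U.R (o i)) (x y : (M.M i).V) :
    v.a2 M i r (x, y) = (v.p i r • x, v.p i (U.w (o i) r) • y) := rfl

/-- The complex of allowed pairs. -/
def gm (i : Ix) : RG (U.R (o i)) :=
  subRG (gd2 (M.M i).toGD) (s2 M i) (v.a2 M i)
    (fun r ⟨x, y⟩ h hb => by
      have h1 : y = M.w i x := h hb
      change v.p i (U.w (o i) r) • y = M.w i (v.p i r • x)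
      rw [M.w_smul, v.p_w_b hb, h1])
    (fun ⟨x, y⟩ h hb => by
      have h1 : y = M.w i x := h hb
      change (M.M i).d y = M.w i ((M.M i).d x)
      rw [h1, M.w_d])
    (fun _ z => Prod.ext ((M.M i).d_smul _ z.1) ((M.M i).d_smul _ z.2))
    (fun m _ z hz => ⟨(M.M i).gr_smul m _ z.1 hz.1, (M.M i).gr_smul m _ z.2 hz.2⟩)

/-- The family of allowed pairs. -/
def go : UObj U where
  M (i : Ix) := v.gm M i
  D (i : Ix) := ((M.D i).prodMap (- M.D i)).restrict (p := s2 M i) (q := s2 M i)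
    fun ⟨x, y⟩ h hb => by
      have h1 : y = M.w i x := h hb
      change - M.D i y = M.w i (M.D i x)
      rw [h1, M.w_D]
  D_smul (i : Ix) (r : U.R (o i)) := fun ⟨⟨x, y⟩, _⟩ => Subtype.ext (Prod.ext (by
    change M.D i (v.p i r • x) = v.p i r • M.D i x + v.p i (U.dd (o i) r) • x
    rw [M.D_smul, v.p_dd]) (by
    change - M.D i (v.p i (U.w (o i) r) • y) =
      v.p i (U.w (o i) r) • - M.D i y + v.p i (U.w (o i) (U.dd (o i) r)) • y
    rw [M.D_smul, U.w_dd, map_neg, v.p_dd, neg_add, smul_neg, neg_smul]))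
  D_d (i : Ix) := fun ⟨⟨x, y⟩, _⟩ => Subtype.ext (Prod.ext (M.D_d i x) (by
    change (M.M i).d (- M.D i y) = - M.D i ((M.M i).d y)
    rw [map_neg, M.D_d]))
  D_gr (i : Ix) m z hz := ⟨M.D_gr i m _ hz.1, neg_mem (M.D_gr i m _ hz.2)⟩
  e (i : Ix) := ((M.e i).prodMap (- M.e i)).restrict (p := s2 M i) (q := s2 M i)
    fun ⟨x, y⟩ h hb => by
      have h1 : y = M.w i x := h hb
      change - M.e i y = M.w i (M.e i x)
      rw [h1, M.w_e]
  e_smul (i : Ix) (r : U.R (o i)) := fun ⟨⟨x, y⟩, _⟩ => Subtype.ext (Prod.ext (M.e_smul i _ x) (by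
    change - M.e i (v.p i (U.w (o i) r) • y) = v.p i (U.w (o i) r) • - M.e i y
    rw [M.e_smul, smul_neg]))
  e_d (i : Ix) := fun ⟨⟨x, y⟩, _⟩ => Subtype.ext (Prod.ext (M.e_d i x) (by
    change (M.M i).d (- M.e i y) = - - M.e i ((M.M i).d y)
    rw [map_neg, M.e_d]))
  e_gr (i : Ix) m z hz := ⟨M.e_gr i m _ hz.1, neg_mem (M.e_gr i m _ hz.2)⟩
  e_e (i : Ix) := fun ⟨⟨x, y⟩, _⟩ => Subtype.ext (Prod.ext (M.e_e i x) (by
    change - M.e i (- M.e i y) = 0
    rw [map_neg, M.e_e, neg_zero, neg_zero]))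
  D_e (i : Ix) := fun ⟨⟨x, y⟩, _⟩ => Subtype.ext (Prod.ext (M.D_e i x) (by
    change - M.D i (- M.e i y) = - M.e i (- M.D i y)
    rw [map_neg, map_neg, M.D_e]))
  w (i : Ix) := (LinearEquiv.prodComm ℂ (M.M i).V (M.M i).V).toLinearMap.restrict
    (p := s2 M i) (q := s2 M i) fun ⟨x, y⟩ h hb => by
      have h1 : y = M.w i x := h hb
      change x = M.w i y
      rw [h1, M.w_w]
  w_smul (i : Ix) (r : U.R (o i)) := fun ⟨⟨x, y⟩, _⟩ => Subtype.ext (Prod.ext rfl (by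
    change v.p i r • x = v.p i (U.w (o i) (U.w (o i) r)) • x
    rw [U.w_w]))
  w_d _ _ := rfl
  w_gr _ _ _ hz := ⟨hz.2, hz.1⟩
  w_w _ _ := rfl
  w_D (i : Ix) := fun ⟨⟨x, _⟩, _⟩ => Subtype.ext (Prod.ext rfl (neg_neg (M.D i x)).symm)
  w_e (i : Ix) := fun ⟨⟨x, _⟩, _⟩ => Subtype.ext (Prod.ext rfl (neg_neg (M.e i x)).symm)
  rho {i k : Ix} (α : H2 i k) := (r2 M α).restrict (p := s2 M i) (q := s2 M k)
    fun ⟨x, y⟩ h hb => by
      have h1 : y = M.w i x := h (to_b (hb ▸ und α))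
      rw [r2_fix M α h1, h1]
      exact M.rho_w _ x
  rho_id (i : Ix) := fun ⟨⟨x, y⟩, _⟩ => Subtype.ext (by
    change r2 M (𝟙 (o i)) (x, y) = (x, y)
    rw [← ar_id, r2_ar, M.rho_id, M.rho_id])
  rho_comp {i k l : Ix} (α : H2 i k) (β : H2 k l) := fun ⟨⟨_, _⟩, h⟩ =>
    Subtype.ext (r2_comp M α β h)
  rho_smul {i k : Ix} (α : H2 i k) (r : U.R (o i)) := fun ⟨⟨x, y⟩, _⟩ => Subtype.ext (by
    change r2 M α (v.p i r • x, v.p i (U.w (o i) r) • y) = v.a2 M k (U.tau α r) (r2 M α (x, y))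
    by_cases h : sgn α = 1
    · rw [r2_one M h, r2_one M h, a2_apply, ← U.tau_w, v.p_tau_one h, v.p_tau_one h, M.rho_smul,
        M.rho_smul]
    · rw [r2_ne M h, r2_ne M h, a2_apply, ← U.tau_w, v.p_tau_ne h, v.p_tau_ne h, U.w_w,
        M.rho_smul, M.rho_smul, M.w_smul, M.w_smul])
  rho_d {i k : Ix} (α : H2 i k) := fun ⟨⟨x, y⟩, _⟩ => Subtype.ext (by
    change r2 M α ((M.M i).d x, (M.M i).d y) = (M.M k).d.prodMap (M.M k).d (r2 M α (x, y))
    by_cases h : sgn α = 1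
    · rw [r2_one M h, r2_one M h, LinearMap.prodMap_apply, M.rho_d, M.rho_d]
    · rw [r2_ne M h, r2_ne M h, LinearMap.prodMap_apply, M.rho_d, M.rho_d, M.w_d, M.w_d])
  rho_gr {i k : Ix} (α : H2 i k) m := fun ⟨⟨x, y⟩, _⟩ hz => by
    change r2 M α (x, y) ∈ ((M.M k).gr m).prod ((M.M k).gr m)
    by_cases h : sgn α = 1
    · rw [r2_one M h]
      exact ⟨M.rho_gr _ m _ hz.1, M.rho_gr _ m _ hz.2⟩
    · rw [r2_ne M h]
      exact ⟨M.w_gr _ m _ (M.rho_gr _ m _ hz.2), M.w_gr _ m _ (M.rho_gr _ m _ hz.1)⟩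
  rho_D {i k : Ix} (α : H2 i k) := fun ⟨⟨x, y⟩, _⟩ => Subtype.ext (by
    change r2 M α (M.D i x, - M.D i y) =
      (M.D k).prodMap (- M.D k) (r2 M α (x, y)) + v.a2 M k (U.eta α) (r2 M α (x, y))
    by_cases h : sgn α = 1
    · rw [r2_one M h, r2_one M h, a2_apply, U.w_eta, map_neg (v.p k), v.p_eta', map_neg, M.rho_D,
        M.rho_D, LinearMap.prodMap_apply, LinearMap.neg_apply, neg_add, neg_smul, Prod.mk_add_mk]
    · rw [r2_ne M h, r2_ne M h, a2_apply, U.w_eta, map_neg (v.p k), v.p_eta', map_neg, M.rho_D,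
        M.rho_D, LinearMap.prodMap_apply, LinearMap.neg_apply, map_neg, map_add, map_add, M.w_D,
        M.w_D, M.w_smul, M.w_smul, T.w_eta, Prod.mk_add_mk, neg_smul, neg_add, neg_neg, neg_neg])
  rho_e {i k : Ix} (α : H2 i k) := fun ⟨⟨x, y⟩, _⟩ => Subtype.ext (by
    change r2 M α (M.e i x, - M.e i y) = (M.e k).prodMap (- M.e k) (r2 M α (x, y))
    by_cases h : sgn α = 1
    · rw [r2_one M h, r2_one M h, map_neg, M.rho_e, M.rho_e]
      rfl
    · rw [r2_ne M h, r2_ne M h, map_neg, M.rho_e, M.rho_e, map_neg, M.w_e, M.w_e, neg_neg]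
      rfl)
  rho_w {i k : Ix} (α : H2 i k) := fun ⟨⟨x, y⟩, _⟩ => Subtype.ext (by
    change r2 M α (y, x) = (r2 M α (x, y)).swap
    by_cases h : sgn α = 1
    · rw [r2_one M h, r2_one M h]
      rfl
    · rw [r2_ne M h, r2_ne M h]
      rfl)

variable {M} {N : TObj T} {q : ℤ}

theorem go_co (u : Co M N q) : IsUCo (v.go M) (v.go N) q fun i : Ix =>
    ((u.f i).prodMap (u.f i)).restrict (p := s2 M i) (q := s2 N i) fun z h hb =>
      (congrArg (u.f i) (h hb)).trans (u.isCo.w i z.1) where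
  deg (i : Ix) m z hz := ⟨u.isCo.deg i m _ hz.1, u.isCo.deg i m _ hz.2⟩
  lin (i : Ix) _ z := Subtype.ext (Prod.ext (u.isCo.lin i _ z.1.1) (u.isCo.lin i _ z.1.2))
  D (i : Ix) := fun ⟨⟨x, y⟩, _⟩ => Subtype.ext (Prod.ext (u.isCo.D i x) (by
    change u.f i (- M.D i y) = - N.D i (u.f i y)
    rw [map_neg, u.isCo.D]))
  e (i : Ix) := fun ⟨⟨x, y⟩, _⟩ => Subtype.ext (Prod.ext (u.isCo.e i x) (by
    change u.f i (- M.e i y) = (q.negOnePow : ℤ) • - N.e i (u.f i y)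
    rw [map_neg, u.isCo.e, smul_neg]))
  w _ _ := rfl
  rho {i k : Ix} (α : H2 i k) := fun ⟨⟨x, y⟩, _⟩ => Subtype.ext (by
    change (u.f k).prodMap (u.f k) (r2 M α (x, y)) = r2 N α (u.f i x, u.f i y)
    by_cases h : sgn α = 1
    · rw [r2_one M h, r2_one N h, LinearMap.prodMap_apply, u.isCo.rho, u.isCo.rho]
    · rw [r2_ne M h, r2_ne N h, LinearMap.prodMap_apply, u.isCo.w, u.isCo.w, u.isCo.rho,
        u.isCo.rho])

/-- The action on cochains. -/
def gc (M N : TObj T) (q : ℤ) : Co M N q →ₗ[ℂ] UCo (v.go M) (v.go N) q where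
  toFun u := UCo.mk _ (v.go_co u)
  map_add' _ _ := rfl
  map_smul' _ _ := rfl

/-- The DG functor. -/
def gf : DGF (TA T) (UA U) where
  obj := v.go
  map n := v.gc _ _ n
  map_one _ := rfl
  map_comp _ _ _ := rfl
  map_d m n α := UCo.eq_dif (v.gc _ _ m α) (v.gc _ _ n (Co.dif m n α))
    (fun h (i : Ix) x => Subtype.ext (Prod.ext (Co.dif_f h α i x.1.1) (Co.dif_f h α i x.1.2)))
    (fun h => (congrArg (v.gc _ _ n) (Co.dif_ne h α)).trans (map_zero _))

end Tv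

end

end Vale.Agent.P286EU
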