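import Vale.Agent.P286EU.Tg

/-!
# Trivial double covers: the equivalence
-/

namespace Vale.Agent.P286EU

open CategoryTheory
open Vale.Agent.P286.H847 (GD)
open Vale.Agent.P286.H353 Vale.Agent.P286ET Vale.Agent.P286EG Vale.Agent.P286E

noncomputable section

theorem qis_inv {M N : GD} (u : GD.Hom M N) (w : N.V → M.V)
    (hw : ∀ m, ∀ y ∈ N.gr m, w y ∈ M.gr m) (h1 : Function.Injective u.f)
    (h2 : ∀ y, u.f (w y) = y) : GD.Qis u := by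
  intro m
  refine ⟨?_, fun y hy hd => ⟨w y, hw _ _ hy, h1 (by rw [u.comm, h2, hd, map_zero]), 0,
    zero_mem _, by rw [h2, map_zero, sub_self]⟩⟩
  rintro x - - ⟨y, hy, e⟩
  exact ⟨w y, hw _ _ hy, h1 (by rw [u.comm, h2, e])⟩

theorem half_add {V : Type} [AddCommGroup V] [Module ℂ V] (x : V) : (2 : ℂ)⁻¹ • (x + x) = x := by
  rw [← two_smul ℂ, smul_smul]
  norm_num

theorem cart_of {T : TDat Ix} (M : TObj T)
    (ha : LocQ (M.M .a) (M.M .n) (M.rho (Ix.tn .a)) (T.s (Ix.tn .a))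
      (T.tau (Ix.tn .a) (T.s (Ix.tn .a))))
    (hb : LocQ (M.M .b) (M.M .n) (M.rho (Ix.tn .b)) (T.s (Ix.tn .b))
      (T.tau (Ix.tn .b) (T.s (Ix.tn .b)))) : Cart M := by
  have hid : ∀ (i : Ix) (u : i ⟶ i), LocQ (M.M i) (M.M i) (M.rho u) (T.s u) (T.tau u (T.s u)) := by
    intro i u m
    have e : ∀ x, M.rho u x = x := fun x => by rw [Ix.hom_eq u (𝟙 i), M.rho_id]
    refine ⟨?_, fun y hy hd => ⟨0, y, hy, hd, 0, zero_mem _, by
      rw [e, pow_zero, one_smul, sub_self, map_zero]⟩⟩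
    rintro x - - ⟨y, hy, h⟩
    exact ⟨0, y, hy, by rw [h, e, pow_zero, one_smul]⟩
  intro i j u
  rcases leOfHom u with rfl | rfl
  · exact hid _ u
  · cases i
    · exact ha
    · exact hb
    · exact hid _ u

namespace Tv

variable {U : UDat I2} {T : TDat Ix} (v : Tv U T)

include v in
theorem db_iso (M : UObj U) {i : I2} (α : i ⟶ i) (h : α ≫ α = 𝟙 i) :
    DB (U.κ α).toRingHom (M.ag i) (M.ag i) (M.tr α) := by
  have h1 : Function.Involutive (U.κ α) := fun z => by rw [← v.κ_comp, h, v.κ_id]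
  have h2 : Function.Involutive (M.rho α) := fun z => by rw [← M.rho_comp, h, M.rho_id]
  exact (db_bij h1.bijective (M.sl α)).2 (qis_inv _ (M.rho α) (M.rho_gr α) h2.injective h2)

include v in
theorem ucart_of (M : UObj U)
    (ha : DB (U.κ (ar (Ix.tn .a))).toRingHom (M.ag _) (M.ag _) (M.tr (ar (Ix.tn .a))))
    (hb : DB (U.κ (ar (Ix.tn .b))).toRingHom (M.ag _) (M.ag _) (M.tr (ar (Ix.tn .b)))) :
    UCart M := by
  intro (i : Ix) (j : Ix) (α : Ar i j)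
  cases α with
  | aa ε => exact v.db_iso M (i := o .a) (Ar.aa ε) (congrArg Ar.aa (Int.units_mul_self ε))
  | nn ε => exact v.db_iso M (i := o .n) (Ar.nn ε) (congrArg Ar.nn (Int.units_mul_self ε))
  | bb => exact v.db_iso M (i := o .b) Ar.bb rfl
  | bn => exact hb
  | an ε =>
    let α : H2 .a .a := Ar.aa ε
    have e : α ≫ ar (Ix.tn .a) = Ar.an ε := congrArg Ar.an (mul_one ε)
    exact (ha.comp (v.db_iso M α (congrArg Ar.aa (Int.units_mul_self ε)))).congr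
      (fun z => (v.κ_comp α _ z).symm.trans (congrArg (fun β => U.κ β z) e))
      (fun x => (M.rho_comp α _ x).symm.trans (congrArg (fun β => M.rho β x) e))

theorem act_pow {M : UObj U} {i : Ix} (r : U.R (o i)) (n : ℕ) {x : (M.M (o i)).V}
    (hx : x ∈ v.fx M i) : v.j i (v.p i r ^ n) • x = r ^ n • x := by
  rw [← map_pow, v.act _ hx]

theorem tau_ε_a : U.tau (ar (Ix.tn .a)) (v.ε .a) = v.ε .n := by
  rw [ε, ε, map_smul, map_add, map_one, v.τ_a]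

theorem fo_a {M : UObj U} (h : UCart M) :
    LocQ (v.fm M .a) (v.fm M .n) ((v.fo M).rho (Ix.tn .a)) (T.s (Ix.tn .a))
      (T.tau (Ix.tn .a) (T.s (Ix.tn .a))) := by
  have H := (db_away v.away_a (M.sl _)).1 (h _ _ (ar (Ix.tn .a)))
  intro m
  refine ⟨?_, ?_⟩
  · rintro ⟨x, hx⟩ hm hd ⟨⟨y, hy⟩, hm', e⟩
    have e1 : (M.M (o .n)).d y = v.ε .n • M.rho (ar (Ix.tn .a)) x := congrArg Subtype.val e
    rw [← tau_ε_a, ← M.rho_smul, v.ε_fx hx] at e1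
    obtain ⟨n, x', hx', e2⟩ := (H m).1 x hm (congrArg Subtype.val hd) ⟨y, hm', e1⟩
    refine ⟨n, ⟨v.ε .a • x', v.ε_mem _⟩, (M.M _).gr_smul _ _ _ hx', Subtype.ext ?_⟩
    change (M.M (o .a)).d (v.ε .a • x') = v.j .a (T.s (Ix.tn .a) ^ n) • x
    rw [RG.d_smul, e2, smul_comm, v.ε_fx hx, ← v.p_σa, v.act_pow _ _ hx]
  · rintro ⟨y, hy⟩ hm hd
    obtain ⟨n, x, hx, hdx, y', hy', e⟩ := (H m).2 y hm (congrArg Subtype.val hd)
    refine ⟨n, ⟨v.ε .a • x, v.ε_mem _⟩, (M.M _).gr_smul _ _ _ hx, Subtype.ext ?_,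
      ⟨v.ε .n • y', v.ε_mem _⟩, (M.M _).gr_smul _ _ _ hy', Subtype.ext ?_⟩
    · change (M.M (o .a)).d (v.ε .a • x) = 0
      rw [RG.d_smul, hdx, smul_zero]
    · change (M.M (o .n)).d (v.ε .n • y') = v.j .n (T.tau (Ix.tn .a) (T.s (Ix.tn .a)) ^ n) • y -
        v.ε .n • M.rho (ar (Ix.tn .a)) (v.ε .a • x)
      rw [RG.d_smul, e, ε_rho, smul_sub, smul_comm, v.ε_fx hy, ← v.p_σa, ← v.p_tau, U.tau_ι,
        v.act_pow _ _ hy]
      rfl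

theorem mem_b {M : UObj U} (x : (M.M (o .b)).V) : x ∈ v.fx M .b := by
  rw [mem_fx, v.τ_b, one_smul]

theorem mu_rho_b {M : UObj U} (x : (M.M (o .b)).V) :
    M.rho (mu .n) (M.rho (ar (Ix.tn .b)) x) = M.rho (ar (Ix.tn .b)) x := by
  rw [rho_mu, mu_b, M.rho_id]

theorem ε_add_mu : v.ε .n + U.tau (mu .n) (v.ε .n) = 1 := by
  have h := congrArg (U.w _) (v.mu_ε .n)
  rw [← U.tau_w, U.w_w] at h
  rw [h, v.w_ε (by decide)]

theorem ε_mul_mu : v.ε .n * U.tau (mu .n) (v.ε .n) = 0 := by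
  have h1 := v.ε_add_mu
  have h2 : v.ε .n * v.ε .n = v.ε .n := by
    conv_lhs => rw [← smul_eq_mul]; lhs; rw [ε]
    rw [smul_assoc, smul_eq_mul, add_mul, one_mul, τ_ε, half_add]
  linear_combination v.ε .n * h1 - h2

theorem lf_b (M : UObj U) :
    DB (U.κ (ar (Ix.tn .b))).toRingHom (M.ag _) (M.ag _) (M.tr (ar (Ix.tn .b))) ↔
    LocF (M.M (o .b)) (M.M (o .n)) (M.rho (ar (Ix.tn .b))) (U.ι _ v.σb)
      (U.ι _ (U.κ (ar (Ix.tn .b)) v.σb)) fun l => U.ι _ (![1, v.tn] l) := db_rg v.frl (M.sl _)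

theorem sum2 {M : UObj U} (x : Fin 2 → (M.M (o .b)).V) :
    ∑ l, U.ι (o .n) (![1, v.tn] l) • M.rho (ar (Ix.tn .b)) (x l) =
      M.rho (ar (Ix.tn .b)) (x 0) + U.ι (o .n) v.tn • M.rho (ar (Ix.tn .b)) (x 1) := by
  rw [Fin.sum_univ_two, Matrix.cons_val_zero, map_one, one_smul]
  rfl

theorem fo_b {M : UObj U} (h : UCart M) :
    LocQ (v.fm M .b) (v.fm M .n) ((v.fo M).rho (Ix.tn .b)) (T.s (Ix.tn .b))
      (T.tau (Ix.tn .b) (T.s (Ix.tn .b))) := by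
  have H := (v.lf_b M).1 (h _ _ (ar (Ix.tn .b)))
  intro m
  refine ⟨?_, ?_⟩
  · rintro ⟨x, hx⟩ hm hd ⟨⟨y, hy⟩, hm', e⟩
    have e1 : (M.M (o .n)).d y = v.ε .n • M.rho (ar (Ix.tn .b)) x := congrArg Subtype.val e
    obtain ⟨n, x', e2⟩ := (H m).1 ![x, 0] (Fin.forall_fin_two.2 ⟨hm, zero_mem _⟩)
      (Fin.forall_fin_two.2 ⟨congrArg Subtype.val hd, map_zero _⟩)
      ⟨y + M.rho (mu .n) y, add_mem hm' (M.rho_gr _ _ _ hm'), by
        rw [sum2, map_add, ← M.rho_d, e1, M.rho_smul, mu_rho_b, ← add_smul, ε_add_mu, one_smul]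
        exact ((congrArg (_ + ·) ((congrArg (_ • ·) (map_zero _)).trans (smul_zero _))).trans
          (add_zero _)).symm⟩
    refine ⟨n, ⟨x' 0, v.mem_b _⟩, (e2 0).1, Subtype.ext ((e2 0).2.trans ?_)⟩
    change _ • x = v.j .b (T.s (Ix.tn .b) ^ n) • x
    rw [← v.p_σb, v.act_pow _ _ hx]
  · rintro ⟨y, hy⟩ hm hd
    have hd' : (M.M (o .n)).d y = 0 := congrArg Subtype.val hd
    obtain ⟨n, x, hx, y', hy', e⟩ := (H m).2 (y + M.rho (mu .n) y) (add_mem hm (M.rho_gr _ _ _ hm))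
      (by rw [map_add, ← M.rho_d, hd', map_zero, add_zero])
    refine ⟨n, ⟨x 0, v.mem_b _⟩, (hx 0).1, Subtype.ext (hx 0).2,
      ⟨v.ε .n • (2 : ℂ)⁻¹ • (y' + M.rho (mu .n) y'), v.ε_mem _⟩, (M.M _).gr_smul _ _ _
        (Submodule.smul_mem _ _ (add_mem hy' (M.rho_gr _ _ _ hy'))), Subtype.ext ?_⟩
    change (M.M (o .n)).d (v.ε .n • (2 : ℂ)⁻¹ • (y' + M.rho (mu .n) y')) =
      v.j .n (T.tau (Ix.tn .b) (T.s (Ix.tn .b)) ^ n) • y - v.ε .n • M.rho (ar (Ix.tn .b)) (x 0)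
    have e0 : U.tau (mu .n) (U.tau (ar (Ix.tn .b)) (U.ι _ v.σb)) =
        U.tau (ar (Ix.tn .b)) (U.ι _ v.σb) := by rw [← U.tau_comp, ar_mu, mu_b, Category.id_comp]
    have e1 : v.ε .n • M.rho (mu .n) y = 0 := by
      rw [← v.ε_fx hy, M.rho_smul, smul_smul, ε_mul_mu, zero_smul]
    rw [sum2, ← U.tau_ι] at e
    have e2 : (M.M (o .n)).d (y' + M.rho (mu .n) y') =
        (U.tau (ar (Ix.tn .b)) (U.ι _ v.σb) ^ n • (y + M.rho (mu .n) y) -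
          M.rho (ar (Ix.tn .b)) (x 0)) +
        (U.tau (ar (Ix.tn .b)) (U.ι _ v.σb) ^ n • (y + M.rho (mu .n) y) -
          M.rho (ar (Ix.tn .b)) (x 0)) := by
      rw [map_add, ← M.rho_d, e, map_sub, map_add, M.rho_smul, M.rho_smul, map_pow, e0, map_add,
        mu_mu', mu_rho_b, mu_rho_b, v.mu_tn, neg_smul, add_comm (M.rho (mu .n) y) y]
      abel
    rw [RG.d_smul, map_smul, e2, half_add, smul_sub, smul_comm, smul_add, e1, add_zero, v.ε_fx hy,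
      ← v.p_σb, ← v.p_tau, v.act_pow _ _ hy]

theorem fo_cart {M : UObj U} (h : UCart M) : Cart (v.fo M) := cart_of _ (v.fo_a h) (v.fo_b h)

theorem go_pow (M : TObj T) (i : Ix) (r : U.R (o i)) (n : ℕ) (z : (v.gm M i).V) :
    (r ^ n • z).1 = (v.p i r ^ n • z.1.1, v.p i (U.w _ r) ^ n • z.1.2) := by
  rw [← map_pow, ← map_pow, ← map_pow]
  rfl

theorem go_eq (M : TObj T) (i : Ix) (r : U.R (o i)) (n : ℕ) {c c' x x' : (M.M i).V}
    (h : (c, c') ∈ s2 M i) (z w : (v.gm M i).V) (hw : w.1 = (x, x'))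
    (e : (M.M i).d c = v.p i r ^ n • z.1.1 - x)
    (e' : (M.M i).d c' = v.p i (U.w _ r) ^ n • z.1.2 - x') :
    (v.gm M i).d ⟨(c, c'), h⟩ = r ^ n • z - w :=
  Subtype.ext (Prod.ext
    (e.trans (congrArg₂ (fun s t : (M.M i).V × (M.M i).V => s.1 - t.1) (v.go_pow M i r n z) hw).symm)
    (e'.trans
      (congrArg₂ (fun s t : (M.M i).V × (M.M i).V => s.2 - t.2) (v.go_pow M i r n z) hw).symm))

theorem pow_up {R V : Type} [CommRing R] [AddCommGroup V] [Module R V] (s : R) (k n : ℕ) (x : V) :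
    s ^ k • s ^ n • x = s ^ (k + n) • x := by rw [smul_smul, pow_add]

theorem go_a' {M : TObj T} (h : Cart M) :
    LocQ (v.gm M .a) (v.gm M .n) ((v.go M).rho (ar (Ix.tn .a))) (U.ι _ v.σa)
      (U.ι _ (U.κ (ar (Ix.tn .a)) v.σa)) := by
  refine fun m => ⟨?_, ?_⟩
  · rintro ⟨⟨x, y⟩, hs⟩ hm hd ⟨⟨⟨x₁, y₁⟩, hs'⟩, hm', e⟩
    have e1 := (congrArg Subtype.val e).trans (r2_ar M (Ix.tn .a) x y)
    have hd' := congrArg Subtype.val hd
    obtain ⟨n, x', hx', ex⟩ := (h (Ix.tn .a) m).1 x hm.1 (congrArg Prod.fst hd')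
      ⟨x₁, hm'.1, congrArg Prod.fst e1⟩
    obtain ⟨k, y', hy', ey⟩ := (h (Ix.tn .a) m).1 y hm.2 (congrArg Prod.snd hd')
      ⟨y₁, hm'.2, congrArg Prod.snd e1⟩
    refine ⟨k + n, ⟨(T.s (Ix.tn .a) ^ k • x', T.s (Ix.tn .a) ^ n • y'), fun hb => by cases hb⟩,
      ⟨(M.M _).gr_smul _ _ _ hx', (M.M _).gr_smul _ _ _ hy'⟩,
      Subtype.ext (Eq.trans ?_ (v.go_pow M .a _ _ _).symm)⟩
    rw [v.p_σa, v.pw_σa]
    change ((M.M .a).d (T.s (Ix.tn .a) ^ k • x'), (M.M .a).d (T.s (Ix.tn .a) ^ n • y')) =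
      (T.s (Ix.tn .a) ^ (k + n) • x, T.s (Ix.tn .a) ^ (k + n) • y)
    rw [RG.d_smul, RG.d_smul, ex, ey, pow_up, pow_up, add_comm n k]
  · rintro ⟨⟨x₁, y₁⟩, hs⟩ hm hd
    have hd' := congrArg Subtype.val hd
    obtain ⟨n, x, hx, hdx, x', hx', ex⟩ := (h (Ix.tn .a) m).2 x₁ hm.1 (congrArg Prod.fst hd')
    obtain ⟨k, y, hy, hdy, y', hy', ey⟩ := (h (Ix.tn .a) m).2 y₁ hm.2 (congrArg Prod.snd hd')
    refine ⟨k + n, ⟨(T.s (Ix.tn .a) ^ k • x, T.s (Ix.tn .a) ^ n • y), fun hb => by cases hb⟩,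
      ⟨(M.M _).gr_smul _ _ _ hx, (M.M _).gr_smul _ _ _ hy⟩, Subtype.ext ?_,
      ⟨(T.tau (Ix.tn .a) (T.s (Ix.tn .a)) ^ k • x', T.tau (Ix.tn .a) (T.s (Ix.tn .a)) ^ n • y'),
        fun hb => by cases hb⟩, ⟨(M.M _).gr_smul _ _ _ hx', (M.M _).gr_smul _ _ _ hy'⟩,
      v.go_eq M .n _ _ _ _ _ (r2_ar M (Ix.tn .a) _ _) ?_ ?_⟩
    · change ((M.M .a).d (T.s (Ix.tn .a) ^ k • x), (M.M .a).d (T.s (Ix.tn .a) ^ n • y)) = (0, 0)
      rw [RG.d_smul, RG.d_smul, hdx, hdy, smul_zero, smul_zero]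
    · rw [← U.tau_ι, v.p_tau, v.p_σa, M.rho_smul, map_pow, RG.d_smul, ex, smul_sub, pow_up]
    · rw [← U.tau_ι, ← U.tau_w, v.p_tau, v.pw_σa, M.rho_smul, map_pow, RG.d_smul, ey, smul_sub,
        pow_up, add_comm n k]

theorem go_a {M : TObj T} (h : Cart M) :
    DB (U.κ (ar (Ix.tn .a))).toRingHom ((v.go M).ag _) ((v.go M).ag _)
      ((v.go M).tr (ar (Ix.tn .a))) := (db_away v.away_a ((v.go M).sl _)).2 (v.go_a' h)

theorem w_t : T.w .n (v.p .n (U.ι _ v.tn)) = - v.p .n (U.ι _ v.tn) := by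
  have h := v.p_mu .n (U.ι _ v.tn)
  rw [v.w_tn, v.mu_tn, map_neg] at h
  exact h.symm

include v in
theorem w_s : T.w .b (T.s (Ix.tn .b)) = T.s (Ix.tn .b) := by
  rw [← v.p_σb, ← v.p_w_b rfl, v.w_σb]

theorem go_sum {M : TObj T} (z : Fin 2 → (v.gm M .b).V) :
    (∑ l, U.ι (o .n) (![1, v.tn] l) • (v.go M).rho (ar (Ix.tn .b)) (z l)).1 =
      (M.rho (Ix.tn .b) (z 0).1.1 + v.p .n (U.ι _ v.tn) • M.rho (Ix.tn .b) (z 1).1.1,
        M.w .n (M.rho (Ix.tn .b) (z 0).1.1 - v.p .n (U.ι _ v.tn) • M.rho (Ix.tn .b) (z 1).1.1)) := by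
  refine (congrArg Subtype.val (v.sum2 (M := v.go M) z)).trans ?_
  change r2 M (ar (Ix.tn .b)) ((z 0).1.1, (z 0).1.2) +
    v.a2 M .n (U.ι _ v.tn) (r2 M (ar (Ix.tn .b)) ((z 1).1.1, (z 1).1.2)) = _
  rw [r2_ar, r2_ar, a2_apply, v.w_tn, (z 0).2 rfl, (z 1).2 rfl, map_sub, M.w_smul, w_t, M.rho_w,
    M.rho_w, neg_smul, sub_neg_eq_add, Prod.mk_add_mk]

theorem go_b' {M : TObj T} (h : Cart M) :
    LocF (v.gm M .b) (v.gm M .n) ((v.go M).rho (ar (Ix.tn .b))) (U.ι _ v.σb)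
      (U.ι _ (U.κ (ar (Ix.tn .b)) v.σb)) fun l => U.ι _ (![1, v.tn] l) := by
  obtain ⟨t, ht⟩ := (v.tn_unit.map (U.ι _)).map (v.p .n)
  have H := h (Ix.tn .b)
  refine fun m => ⟨?_, ?_⟩
  · rintro z hm hd ⟨⟨⟨y₁, y₂⟩, hs⟩, hm', e⟩
    have e1 := (congrArg Subtype.val e).trans (v.go_sum z)
    have e2 : (M.M .n).d y₁ = _ := congrArg Prod.fst e1
    have e3 : (M.M .n).d (M.w .n y₂) = _ :=
      (M.w_d _ _).trans ((congrArg (fun z => M.w .n z.2) e1).trans (M.w_w _ _))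
    obtain ⟨n, x, hx, ex⟩ := (H m).1 (z 0).1.1 (hm 0).1 (congrArg (fun z => z.1.1) (hd 0))
      ⟨(2 : ℂ)⁻¹ • (y₁ + M.w .n y₂), Submodule.smul_mem _ _ (add_mem hm'.1 (M.w_gr _ _ _ hm'.2)), by
        rw [map_smul, map_add, e2, e3, add_add_sub_cancel, half_add]⟩
    obtain ⟨k, x', hx', ex'⟩ := (H m).1 (z 1).1.1 (hm 1).1 (congrArg (fun z => z.1.1) (hd 1))
      ⟨((t⁻¹ : (T.R .n)ˣ) : T.R .n) • (2 : ℂ)⁻¹ • (y₁ - M.w .n y₂), (M.M _).gr_smul _ _ _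
        (Submodule.smul_mem _ _ (sub_mem hm'.1 (M.w_gr _ _ _ hm'.2))), by
        rw [RG.d_smul, map_smul, map_sub, e2, e3, add_sub_sub_cancel, half_add, ← ht, smul_smul,
          Units.inv_mul, one_smul]⟩
    have key : ∀ (l : Fin 2) (u : (M.M .b).V), u ∈ (M.M .b).gr (m - 1) →
        (M.M .b).d u = T.s (Ix.tn .b) ^ (k + n) • (z l).1.1 →
        ∃ u' : (v.gm M .b).V, u' ∈ (v.gm M .b).gr (m - 1) ∧
          (v.gm M .b).d u' = U.ι _ v.σb ^ (k + n) • z l := fun l u hu eu =>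
      ⟨⟨(u, M.w .b u), fun _ => rfl⟩, ⟨hu, M.w_gr _ _ _ hu⟩,
        Subtype.ext (Eq.trans (by
          rw [v.w_σb, v.p_σb, (z l).2 rfl]
          exact Prod.ext eu ((M.w_d _ _).trans (by rw [eu, M.w_smul, map_pow, v.w_s])))
          (v.go_pow M .b _ _ _).symm)⟩
    obtain ⟨u, hu⟩ := key 0 (T.s (Ix.tn .b) ^ k • x) ((M.M _).gr_smul _ _ _ hx)
      (by rw [RG.d_smul, ex, pow_up])
    obtain ⟨u', hu'⟩ := key 1 (T.s (Ix.tn .b) ^ n • x') ((M.M _).gr_smul _ _ _ hx')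
      (by rw [RG.d_smul, ex', pow_up, add_comm])
    exact ⟨k + n, ![u, u'], Fin.forall_fin_two.2 ⟨hu, hu'⟩⟩
  · rintro ⟨⟨y₁, y₂⟩, hs⟩ hm hd
    have d1 : (M.M .n).d y₁ = 0 := congrArg (fun z => z.1.1) hd
    have d2 : (M.M .n).d y₂ = 0 := congrArg (fun z => z.1.2) hd
    have d3 : (M.M .n).d (M.w .n y₂) = 0 := by rw [M.w_d, d2, map_zero]
    obtain ⟨n, x, hx, hdx, c, hc, ec⟩ := (H m).2 ((2 : ℂ)⁻¹ • (y₁ + M.w .n y₂))
      (Submodule.smul_mem _ _ (add_mem hm.1 (M.w_gr _ _ _ hm.2)))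
      (by rw [map_smul, map_add, d1, d3, add_zero, smul_zero])
    obtain ⟨k, x', hx', hdx', c', hc', ec'⟩ := (H m).2
      (((t⁻¹ : (T.R .n)ˣ) : T.R .n) • (2 : ℂ)⁻¹ • (y₁ - M.w .n y₂))
      ((M.M _).gr_smul _ _ _ (Submodule.smul_mem _ _ (sub_mem hm.1 (M.w_gr _ _ _ hm.2))))
      (by rw [RG.d_smul, map_smul, map_sub, d1, d3, sub_zero, smul_zero, smul_zero])
    have key : ∀ u : (M.M .b).V, u ∈ (M.M .b).gr m → (M.M .b).d u = 0 →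
        ∃ u' : (v.gm M .b).V, u'.1.1 = u ∧ u' ∈ (v.gm M .b).gr m ∧ (v.gm M .b).d u' = 0 :=
      fun u hu eu => ⟨⟨(u, M.w .b u), fun _ => rfl⟩, rfl, ⟨hu, M.w_gr _ _ _ hu⟩,
        Subtype.ext (Prod.ext eu ((M.w_d _ _).trans (by rw [eu, map_zero]; rfl)))⟩
    obtain ⟨u, eu, hu⟩ := key (T.s (Ix.tn .b) ^ k • x) ((M.M _).gr_smul _ _ _ hx)
      (by rw [RG.d_smul, hdx, smul_zero])
    obtain ⟨u', eu', hu'⟩ := key (T.s (Ix.tn .b) ^ n • x') ((M.M _).gr_smul _ _ _ hx')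
      (by rw [RG.d_smul, hdx', smul_zero])
    set s := T.tau (Ix.tn .b) (T.s (Ix.tn .b)) with hs'
    have g1 := (M.M .n).gr_smul _ (s ^ k) _ hc
    have g2 := (M.M .n).gr_smul _ t _ ((M.M .n).gr_smul _ (s ^ n) _ hc')
    have f1 : (M.M .n).d (s ^ k • c) = (2 : ℂ)⁻¹ • s ^ (k + n) • (y₁ + M.w .n y₂) -
        M.rho (Ix.tn .b) (T.s (Ix.tn .b) ^ k • x) := by
      rw [RG.d_smul, ec, smul_sub, pow_up, smul_comm, M.rho_smul, map_pow]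
    have f2 : (M.M .n).d ((t : T.R .n) • s ^ n • c') = (2 : ℂ)⁻¹ • s ^ (k + n) • (y₁ - M.w .n y₂) -
        (t : T.R .n) • M.rho (Ix.tn .b) (T.s (Ix.tn .b) ^ n • x') := by
      rw [RG.d_smul, RG.d_smul, ec', smul_sub, pow_up, smul_sub, smul_comm (t : T.R .n), smul_smul
        (t : T.R .n), Units.mul_inv, one_smul, smul_comm, M.rho_smul, map_pow, add_comm n k]
    have ws : T.w .n s = s := by rw [hs', ← T.tau_w, v.w_s]
    refine ⟨k + n, ![u, u'], Fin.forall_fin_two.2 ⟨hu, hu'⟩,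
      ⟨(s ^ k • c + (t : T.R .n) • s ^ n • c', M.w .n (s ^ k • c - (t : T.R .n) • s ^ n • c')),
        fun hb => by cases hb⟩, ⟨add_mem g1 g2, M.w_gr _ _ _ (sub_mem g1 g2)⟩,
      v.go_eq M .n _ _ _ _ _ (v.go_sum _) ?_ ?_⟩
    · rw [← U.tau_ι, v.p_tau, v.p_σb, ← hs', ← ht]
      change _ = s ^ (k + n) • y₁ - (M.rho _ u.1.1 + (t : T.R .n) • M.rho _ u'.1.1)
      rw [eu, eu', map_add, f1, f2, sub_add_sub_comm, ← smul_add, ← smul_add, add_add_sub_cancel,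
        smul_add (s ^ (k + n)), half_add]
    · rw [← U.tau_ι, ← U.tau_w, v.w_σb, v.p_tau, v.p_σb, ← hs', ← ht]
      change _ = s ^ (k + n) • y₂ - M.w .n (M.rho _ u.1.1 - (t : T.R .n) • M.rho _ u'.1.1)
      rw [eu, eu', M.w_d, map_sub (M.M .n).d, f1, f2, sub_sub_sub_comm, ← smul_sub, ← smul_sub,
        add_sub_sub_cancel, smul_add (s ^ (k + n)), half_add, map_sub, M.w_smul, map_pow, ws, M.w_w]

theorem go_cart {M : TObj T} (h : Cart M) : UCart (v.go M) := 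
  v.ucart_of _ (v.go_a h) ((v.lf_b (v.go M)).2 (v.go_b' h))

end Tv

end

end Vale.Agent.P286EU
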