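import Vale.Agent.P286EU.Br1
import Vale.Agent.P286E.QD

/-!
# Trivial double covers: the data, and the functor of `τ`-fixed elements
-/

namespace Vale.Agent.P286EU

open CategoryTheory
open Vale.Agent.P286.H847 (GD)
open Vale.Agent.P286.H353 Vale.Agent.P286ET Vale.Agent.P286EG Vale.Agent.P286E

noncomputable section

section Sub

variable {R : Type} [CommRing R] [Algebra ℂ R] (G : GD) (S : Submodule ℂ G.V)
  (act : R →ₐ[ℂ] Module.End ℂ G.V) (hS : ∀ r, ∀ x ∈ S, act r x ∈ S)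

/-- The action on a stable subspace. -/
def actS : R →+* Module.End ℂ S where
  toFun r := (act r).restrict (hS r)
  map_one' := LinearMap.ext fun x => Subtype.ext (LinearMap.congr_fun (map_one act) x.1)
  map_mul' r s := LinearMap.ext fun x => Subtype.ext (LinearMap.congr_fun (map_mul act r s) x.1)
  map_zero' := LinearMap.ext fun x => Subtype.ext (LinearMap.congr_fun (map_zero act) x.1)
  map_add' r s := LinearMap.ext fun x => Subtype.ext (LinearMap.congr_fun (map_add act r s) x.1)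

/-- A stable subspace as a graded differential module. -/
def subRG (hd : ∀ x ∈ S, G.d x ∈ S) (ad : ∀ r x, G.d (act r x) = act r (G.d x))
    (ag : ∀ m r x, x ∈ G.gr m → act r x ∈ G.gr m) : RG R where
  V := S
  d := G.d.restrict hd
  dd x := Subtype.ext (G.dd x.1)
  gr m := (G.gr m).comap S.subtype
  dgr m x hx := G.dgr m x.1 hx
  md := Module.compHom S (actS G S act hS)
  tw := by
    let _ := Module.compHom S (actS G S act hS)
    exact ⟨fun c r x => Subtype.ext (LinearMap.congr_fun (map_smul act c r) x.1)⟩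
  d_smul r x := Subtype.ext (ad r x.1)
  gr_smul m r x hx := ag m r x.1 hx

end Sub

/-- The object of the index category with signs. -/
def o (i : Ix) : I2 := i

/-- The arrows of the index category with signs. -/
abbrev H2 (i j : Ix) : Type := o i ⟶ o j

/-- The nontrivial automorphism. -/
def mu : ∀ i : Ix, H2 i i
  | .a => Ar.aa (-1)
  | .b => Ar.bb
  | .n => Ar.nn (-1)

/-- The arrow with the sign `1`. -/
def ar' : ∀ i j : Ix, i ≤ j → H2 i j
  | .a, .a, _ => Ar.aa 1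
  | .b, .b, _ => Ar.bb
  | .n, .n, _ => Ar.nn 1
  | .a, .n, _ => Ar.an 1
  | .b, .n, _ => Ar.bn
  | .a, .b, h => absurd h (by rintro (h | h) <;> cases h)
  | .b, .a, h => absurd h (by rintro (h | h) <;> cases h)
  | .n, .a, h => absurd h (by rintro (h | h) <;> cases h)
  | .n, .b, h => absurd h (by rintro (h | h) <;> cases h)

/-- The arrow with the sign `1`. -/
def ar {i j : Ix} (u : i ⟶ j) : H2 i j := ar' i j (leOfHom u)

/-- The underlying arrow. -/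
def und' : ∀ {i j : Ix}, Ar i j → (i ⟶ j)
  | _, _, .aa _ => 𝟙 _
  | _, _, .an _ => Ix.tn _
  | _, _, .nn _ => 𝟙 _
  | _, _, .bb => 𝟙 _
  | _, _, .bn => Ix.tn _

/-- The sign. -/
def sgn' : ∀ {i j : Ix}, Ar i j → ℤˣ
  | _, _, .aa ε => ε
  | _, _, .an ε => ε
  | _, _, .nn ε => ε
  | _, _, .bb => 1
  | _, _, .bn => 1

/-- The underlying arrow. -/
def und {i j : Ix} (α : H2 i j) : i ⟶ j := @und' i j α

/-- The sign. -/
def sgn {i j : Ix} (α : H2 i j) : ℤˣ := @sgn' i j α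

theorem ar_id (i : Ix) : ar (𝟙 i) = 𝟙 (o i) := by cases i <;> rfl

theorem ar_comp {i j k : Ix} (u : i ⟶ j) (v : j ⟶ k) : ar (u ≫ v) = ar u ≫ ar v := by
  rcases leOfHom u with rfl | rfl <;> rcases leOfHom v with rfl | rfl <;> cases i <;> rfl

theorem mu_mu (i : Ix) : mu i ≫ mu i = 𝟙 (o i) := by cases i <;> rfl

theorem ar_mu {i j : Ix} (u : i ⟶ j) : ar u ≫ mu j = mu i ≫ ar u := by
  rcases leOfHom u with rfl | rfl <;> cases i <;> rfl

theorem mu_b : mu .b = 𝟙 (o .b) := rfl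

theorem sgn_ar {i j : Ix} (u : i ⟶ j) : sgn (ar u) = 1 := by
  rcases leOfHom u with rfl | rfl <;> cases i <;> rfl

theorem sgn_mu {i : Ix} (h : i ≠ .b) : sgn (mu i) = -1 := by
  cases i
  · rfl
  · exact absurd rfl h
  · rfl

theorem sgn_comp {i j k : Ix} (α : H2 i j) (β : H2 j k) :
    i = .b ∨ sgn (α ≫ β) = sgn β * sgn α := by
  cases α <;> cases β <;> first | exact Or.inl rfl | exact Or.inr (mul_comm _ _)

theorem eq_ar {i j : Ix} (α : H2 i j) (h : sgn α = 1) : α = ar (und α) := by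
  cases α <;> first | rfl | (obtain rfl : _ = (1 : ℤˣ) := h; rfl)

theorem eq_ar_mu {i j : Ix} (α : H2 i j) (h : ¬ sgn α = 1) : α = ar (und α) ≫ mu j := by
  cases α <;> first
    | rfl
    | (obtain rfl : _ = (-1 : ℤˣ) := (Int.units_eq_one_or _).resolve_left h; rfl)

theorem to_b {i : Ix} (u : i ⟶ .b) : i = .b := by
  rcases leOfHom u with h | h
  · exact h
  · cases h

/-- On the charts `a`, `n` the diagram `U` is a trivial double cover of `T`. -/
structure Tv (U : UDat I2) (T : TDat Ix) where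
  j : ∀ i : Ix, T.R i →ₐ[ℂ] U.R (o i)
  p : ∀ i : Ix, U.R (o i) →ₐ[ℂ] T.R i
  τ : ∀ i : Ix, U.R (o i)
  τ_sq : ∀ i, τ i * τ i = 1
  p_j : ∀ i z, p i (j i z) = z
  p_τ : ∀ i, p i (τ i) = 1
  j_p : ∀ i r, (1 + τ i) * j i (p i r) = (1 + τ i) * r
  dd_τ : ∀ i : Ix, U.dd (o i) (τ i) = 0
  p_dd : ∀ (i : Ix) r, p i (U.dd (o i) r) = T.dd i (p i r)
  τ_b : τ .b = 1
  w_τ : ∀ i : Ix, i ≠ .b → U.w (o i) (τ i) = - τ i
  mu_τ : ∀ i : Ix, U.tau (mu i) (U.w (o i) (τ i)) = τ i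
  p_tau : ∀ {i k : Ix} (u : i ⟶ k) r, p k (U.tau (ar u) r) = T.tau u (p i r)
  p_mu : ∀ (i : Ix) r, p i (U.tau (mu i) r) = T.w i (p i (U.w (o i) r))
  p_eta : ∀ {i k : Ix} (u : i ⟶ k), p k (U.eta (ar u)) = T.eta u
  eta_mu : ∀ i : Ix, U.eta (mu i) = 0
  σa : U.C (o .a)
  away_a : IsAway (U.κ (ar (Ix.tn .a))) σa
  p_σa : p .a (U.ι (o .a) σa) = T.s (Ix.tn .a)
  pw_σa : p .a (U.w (o .a) (U.ι (o .a) σa)) = T.s (Ix.tn .a)
  τ_a : U.tau (ar (Ix.tn .a)) (τ .a) = τ .n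
  σb : U.C (o .b)
  tn : U.C (o .n)
  frl : FrL (U.κ (ar (Ix.tn .b))).toRingHom σb ![1, tn]
  p_σb : p .b (U.ι (o .b) σb) = T.s (Ix.tn .b)
  w_σb : U.w (o .b) (U.ι (o .b) σb) = U.ι (o .b) σb
  w_tn : U.w (o .n) (U.ι (o .n) tn) = U.ι (o .n) tn
  mu_tn : U.tau (mu .n) (U.ι (o .n) tn) = - U.ι (o .n) tn
  tn_unit : IsUnit tn
  κ_id : ∀ (i : I2) z, U.κ (𝟙 i) z = z
  κ_comp : ∀ {i k l : I2} (α : i ⟶ k) (β : k ⟶ l) z, U.κ (α ≫ β) z = U.κ β (U.κ α z)

namespace Tv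

variable {U : UDat I2} {T : TDat Ix} (v : Tv U T)

/-- The idempotent `(1 + τ) / 2`. -/
def ε (i : Ix) : U.R (o i) := (2 : ℂ)⁻¹ • (1 + v.τ i)

theorem τ_ε (i : Ix) : v.τ i * v.ε i = v.ε i := by
  rw [ε, mul_smul_comm, mul_add, v.τ_sq, mul_one, add_comm]

theorem p_ε (i : Ix) : v.p i (v.ε i) = 1 := by
  rw [ε, map_smul, map_add, map_one, v.p_τ, ← two_smul ℂ, smul_smul]
  norm_num

theorem dd_ε (i : Ix) : U.dd (o i) (v.ε i) = 0 := by
  rw [ε, Derivation.map_smul, map_add, v.dd_τ, Derivation.map_one_eq_zero, add_zero, smul_zero]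

theorem mu_ε (i : Ix) : U.tau (mu i) (U.w (o i) (v.ε i)) = v.ε i := by
  rw [ε, map_smul, map_smul, map_add, map_add, map_one, map_one, v.mu_τ]

theorem ε_b : v.ε .b = 1 := by
  rw [ε, v.τ_b, ← two_smul ℂ, smul_smul]
  norm_num

theorem w_ε {i : Ix} (h : i ≠ .b) : v.ε i + U.w (o i) (v.ε i) = 1 := by
  rw [ε, map_smul, map_add, map_one, v.w_τ i h, ← smul_add, add_add_add_comm, add_neg_cancel,
    add_zero, ← two_smul ℂ, smul_smul]
  norm_num

variable (M : UObj U)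

/-- The fixed elements. -/
def fx (i : Ix) : Submodule ℂ (M.M (o i)).V where
  carrier := {x | v.τ i • x = x}
  add_mem' {x y} hx hy := by
    change v.τ i • (x + y) = x + y
    rw [smul_add, hx, hy]
  zero_mem' := smul_zero _
  smul_mem' c x hx := by
    change v.τ i • c • x = c • x
    rw [smul_comm, hx]

variable {M}

theorem mem_fx {i : Ix} {x : (M.M (o i)).V} : x ∈ v.fx M i ↔ v.τ i • x = x := Iff.rfl

theorem smul_mem {i : Ix} (r : U.R (o i)) {x : (M.M (o i)).V} (hx : x ∈ v.fx M i) : r • x ∈ v.fx M i := by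
  rw [mem_fx] at hx ⊢
  rw [smul_comm, hx]

theorem ε_mem {i : Ix} (x : (M.M (o i)).V) : v.ε i • x ∈ v.fx M i := by
  rw [mem_fx, smul_smul, τ_ε]

theorem ε_fx {i : Ix} {x : (M.M (o i)).V} (hx : x ∈ v.fx M i) : v.ε i • x = x := by
  rw [mem_fx] at hx
  rw [ε, smul_assoc, add_smul, one_smul, hx, ← two_smul ℂ, smul_smul]
  norm_num

theorem act {i : Ix} (r : U.R (o i)) {x : (M.M (o i)).V} (hx : x ∈ v.fx M i) :
    v.j i (v.p i r) • x = r • x := by
  rw [← v.ε_fx hx, smul_smul, smul_smul, ε, mul_smul_comm, mul_smul_comm, mul_comm, v.j_p,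
    mul_comm]

theorem D_ε {i : Ix} (x : (M.M (o i)).V) : M.D (o i) (v.ε i • x) = v.ε i • M.D (o i) x := by
  rw [M.D_smul, dd_ε, zero_smul, add_zero]

theorem muw_ε {i : Ix} (x : (M.M (o i)).V) :
    M.rho (mu i) (M.w (o i) (v.ε i • x)) = v.ε i • M.rho (mu i) (M.w (o i) x) := by
  rw [M.w_smul, M.rho_smul, mu_ε]

theorem mem_of {i : Ix} {x : (M.M (o i)).V} (hx : x ∈ v.fx M i) {φ : (M.M (o i)).V → (M.M (o i)).V}
    (h : ∀ y, φ (v.ε i • y) = v.ε i • φ y) : φ x ∈ v.fx M i := by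
  rw [← v.ε_fx hx, h]
  exact v.ε_mem _

theorem ε_rho {i k : Ix} (u : i ⟶ k) (x : (M.M (o i)).V) :
    v.ε k • M.rho (ar u) (v.ε i • x) = v.ε k • M.rho (ar u) x := by
  rw [M.rho_smul, smul_comm, ← v.act _ (v.ε_mem _), v.p_tau, p_ε, map_one, map_one, one_smul]

theorem rho_mu {i k : Ix} (u : i ⟶ k) (x : (M.M (o i)).V) :
    M.rho (mu k) (M.rho (ar u) x) = M.rho (ar u) (M.rho (mu i) x) := by
  rw [← M.rho_comp, ← M.rho_comp, ar_mu]

theorem mu_mu' {i : Ix} (x : (M.M (o i)).V) : M.rho (mu i) (M.rho (mu i) x) = x := by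
  rw [← M.rho_comp, mu_mu, M.rho_id]

variable (M)

/-- The complex of fixed elements. -/
def fm (i : Ix) : RG (T.R i) :=
  subRG (M.M (o i)).toGD (v.fx M i) ((Algebra.lsmul ℂ ℂ (M.M (o i)).V).comp (v.j i))
    (fun r _ hx => v.smul_mem (v.j i r) hx)
    (fun _ hx => v.mem_of hx ((M.M (o i)).d_smul _)) (fun r x => (M.M (o i)).d_smul (v.j i r) x)
    (fun m r x hx => (M.M (o i)).gr_smul m (v.j i r) x hx)

/-- The family of fixed elements. -/
def fo : TObj T where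
  M := v.fm M
  D i := (M.D (o i)).restrict fun _ hx => v.mem_of hx v.D_ε
  D_smul i r := fun ⟨x, hx⟩ => Subtype.ext (by
    change M.D (o i) (v.j i r • x) = v.j i r • M.D (o i) x + v.j i (T.dd i r) • x
    rw [M.D_smul, ← v.act (U.dd (o i) _) hx, v.p_dd, v.p_j])
  D_d i x := Subtype.ext (M.D_d (o i) x.1)
  D_gr i m x hx := M.D_gr (o i) m x.1 hx
  e i := (M.e (o i)).restrict fun _ hx => v.mem_of hx (M.e_smul (o i) _)
  e_smul i r x := Subtype.ext (M.e_smul (o i) (v.j i r) x.1)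
  e_d i x := Subtype.ext (M.e_d (o i) x.1)
  e_gr i m x hx := M.e_gr (o i) m x.1 hx
  e_e i x := Subtype.ext (M.e_e (o i) x.1)
  D_e i x := Subtype.ext (M.D_e (o i) x.1)
  w i := (M.rho (mu i) ∘ₗ M.w (o i)).restrict fun _ hx =>
    v.mem_of (φ := fun y => M.rho (mu i) (M.w (o i) y)) hx v.muw_ε
  w_smul i r := fun ⟨x, hx⟩ => Subtype.ext (by
    change M.rho (mu i) (M.w (o i) (v.j i r • x)) = v.j i (T.w i r) • M.rho (mu i) (M.w (o i) x)
    rw [M.w_smul, M.rho_smul,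
      ← v.act _ (v.mem_of (φ := fun y => M.rho (mu i) (M.w (o i) y)) hx v.muw_ε), v.p_mu, U.w_w, v.p_j])
  w_d i := fun ⟨x, _⟩ => Subtype.ext (by
    change (M.M (o i)).d (M.rho (mu i) (M.w (o i) x)) = M.rho (mu i) (M.w (o i) ((M.M (o i)).d x))
    rw [← M.rho_d, M.w_d])
  w_gr i m x hx := M.rho_gr _ m _ (M.w_gr (o i) m x.1 hx)
  w_w i := fun ⟨x, _⟩ => Subtype.ext (by
    change M.rho (mu i) (M.w (o i) (M.rho (mu i) (M.w (o i) x))) = x
    rw [← M.rho_w, mu_mu', M.w_w])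
  w_D i := fun ⟨x, _⟩ => Subtype.ext (by
    change M.rho (mu i) (M.w (o i) (M.D (o i) x)) = - M.D (o i) (M.rho (mu i) (M.w (o i) x))
    rw [M.w_D, map_neg, M.rho_D, v.eta_mu, zero_smul, add_zero])
  w_e i := fun ⟨x, _⟩ => Subtype.ext (by
    change M.rho (mu i) (M.w (o i) (M.e (o i) x)) = - M.e (o i) (M.rho (mu i) (M.w (o i) x))
    rw [M.w_e, map_neg, M.rho_e])
  rho {i k} u := LinearMap.codRestrict (v.fx M k)
    (Algebra.lsmul ℂ ℂ (M.M (o k)).V (v.ε k) ∘ₗ M.rho (ar u) ∘ₗ (v.fx M i).subtype) fun _ => v.ε_mem _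
  rho_id i := fun ⟨x, hx⟩ => Subtype.ext (by
    change v.ε i • M.rho (ar (𝟙 i)) x = x
    rw [ar_id, M.rho_id, v.ε_fx hx])
  rho_comp {i k l} a c := fun ⟨x, _⟩ => Subtype.ext (by
    change v.ε l • M.rho (ar (a ≫ c)) x = v.ε l • M.rho (ar c) (v.ε k • M.rho (ar a) x)
    rw [ε_rho, ar_comp, M.rho_comp])
  rho_smul {i k} a r := fun ⟨x, _⟩ => Subtype.ext (by
    change v.ε k • M.rho (ar a) (v.j i r • x) = v.j k (T.tau a r) • v.ε k • M.rho (ar a) x
    rw [M.rho_smul, smul_comm, ← v.act _ (v.ε_mem _), v.p_tau, v.p_j])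
  rho_d {i k} a := fun ⟨x, _⟩ => Subtype.ext (by
    change v.ε k • M.rho (ar a) ((M.M (o i)).d x) = (M.M (o k)).d (v.ε k • M.rho (ar a) x)
    rw [M.rho_d, RG.d_smul])
  rho_gr {i k} a m x hx := (M.M (o k)).gr_smul m _ _ (M.rho_gr _ m x.1 hx)
  rho_D {i k} a := fun ⟨x, _⟩ => Subtype.ext (by
    change v.ε k • M.rho (ar a) (M.D (o i) x) =
      M.D (o k) (v.ε k • M.rho (ar a) x) + v.j k (T.eta a) • v.ε k • M.rho (ar a) x
    rw [M.rho_D, D_ε, smul_add, ← v.p_eta, v.act _ (v.ε_mem _), smul_comm (U.eta _)])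
  rho_e {i k} a := fun ⟨x, _⟩ => Subtype.ext (by
    change v.ε k • M.rho (ar a) (M.e (o i) x) = M.e (o k) (v.ε k • M.rho (ar a) x)
    rw [M.rho_e, M.e_smul])
  rho_w {i k} a := fun ⟨x, _⟩ => Subtype.ext (by
    change v.ε k • M.rho (ar a) (M.rho (mu i) (M.w (o i) x)) =
      M.rho (mu k) (M.w (o k) (v.ε k • M.rho (ar a) x))
    rw [muw_ε, ← M.rho_w, rho_mu])

variable {M} {N : UObj U} {q : ℤ}

theorem fo_co (u : UCo M N q) : IsCo (v.fo M) (v.fo N) q fun i =>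
    (u.f (o i)).restrict (p := v.fx M i) (q := v.fx N i) fun x hx =>
      ((u.isCo.lin (o i) _ x).symm.trans (congrArg (u.f (o i)) hx) : v.τ i • u.f (o i) x = u.f (o i) x) where
  deg i m x hx := u.isCo.deg (o i) m x.1 hx
  lin i r x := Subtype.ext (u.isCo.lin (o i) (v.j i r) x.1)
  D i x := Subtype.ext (u.isCo.D (o i) x.1)
  e i x := Subtype.ext (u.isCo.e (o i) x.1)
  w i x := Subtype.ext ((u.isCo.rho (mu i) _).trans (congrArg (N.rho (mu i)) (u.isCo.w (o i) x.1)))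
  rho {_ k} a x := Subtype.ext ((u.isCo.lin (o k) _ _).trans
    (congrArg (v.ε k • ·) (u.isCo.rho (ar a) x.1)))

/-- The action on cochains. -/
def fc (M N : UObj U) (q : ℤ) : UCo M N q →ₗ[ℂ] Co (v.fo M) (v.fo N) q where
  toFun u := Co.mk _ (v.fo_co u)
  map_add' _ _ := rfl
  map_smul' _ _ := rfl

/-- The DG functor. -/
def ff : DGF (UA U) (TA T) where
  obj := v.fo
  map n := v.fc _ _ n
  map_one _ := rfl
  map_comp _ _ _ := rfl
  map_d m n α := Co.eq_dif (v.fc _ _ m α) (v.fc _ _ n (UCo.dif m n α))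
    (fun h i x => Subtype.ext (UCo.dif_f h α (o i) x.1))
    (fun h => (congrArg (v.fc _ _ n) (UCo.dif_ne h α)).trans (map_zero _))

end Tv

end

end Vale.Agent.P286EU
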