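import Vale.Agent.P286EU.Defs
import Vale.Agent.P286E.QD

/-!
# The diagram of double covers defined by a chart datum with vector fields
-/

namespace Vale.Agent.P286EU

open CategoryTheory TrivSqZeroExt
open Vale.Agent.P286ET Vale.Agent.P286E

noncomputable section

section Dc

variable {A B : Type} [CommRing A] [Algebra ℂ A] [CommRing B] [Algebra ℂ B]

theorem dc_rep {f : A} (x : Dc f) : ∃ α β : A, x = Dc.of f α + Dc.of f β * Dc.t f := by
  let S : Subalgebra ℂ (Dc f) :=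
    { carrier := {x | ∃ α β : A, x = Dc.of f α + Dc.of f β * Dc.t f}
      mul_mem' := by
        rintro _ _ ⟨α, β, rfl⟩ ⟨γ, δ, rfl⟩
        refine ⟨α * γ + β * δ * f, α * δ + β * γ, ?_⟩
        simp only [map_add, map_mul, ← Dc.t_sq]
        ring
      add_mem' := by
        rintro _ _ ⟨α, β, rfl⟩ ⟨γ, δ, rfl⟩
        refine ⟨α + γ, β + δ, ?_⟩
        simp only [map_add]
        ring
      algebraMap_mem' := fun c => ⟨algebraMap ℂ A c, 0, by
        rw [map_zero, zero_mul, add_zero, AlgHom.commutes]⟩ }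
  have ho : ∀ a, Dc.of f a ∈ S := fun a => ⟨a, 0, by rw [map_zero, zero_mul, add_zero]⟩
  have ht : Dc.t f ∈ S := ⟨0, 1, by rw [map_zero, map_one, zero_add, one_mul]⟩
  have hs : (⟨_, ht⟩ : S) ^ 2 = (Dc.of f).codRestrict S ho f := Subtype.ext (Dc.t_sq f)
  let ψ : Dc f →ₐ[ℂ] S := Dc.lift f ((Dc.of f).codRestrict S ho) ⟨_, ht⟩ hs
  have h : S.val.comp ψ = AlgHom.id ℂ _ :=
    Dc.ext (fun a => congrArg Subtype.val (Dc.lift_of _ _ _ hs a))
      (congrArg Subtype.val (Dc.lift_t _ _ _ hs))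
  obtain ⟨α, β, e⟩ := (ψ x).2
  exact ⟨α, β, (AlgHom.congr_fun h x).symm.trans e⟩

theorem dc_free {f α β : A} (h : Dc.of f α + Dc.of f β * Dc.t f = 0) : α = 0 ∧ β = 0 := by
  let ψ : Dc f →ₐ[ℂ] QuadraticAlgebra A f 0 :=
    Dc.lift f (IsScalarTower.toAlgHom ℂ A _) QuadraticAlgebra.omega (by
      rw [sq, QuadraticAlgebra.omega_mul_omega_eq_mk]; rfl)
  have h1 := congrArg ψ h
  rw [map_add, map_mul, map_zero, Dc.lift_of, Dc.lift_of, Dc.lift_t] at h1
  have h2 := congrArg QuadraticAlgebra.re h1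
  have h3 := congrArg QuadraticAlgebra.im h1
  simp at h2 h3
  exact ⟨h2, h3⟩

theorem dc_ind {f : A} {p : Dc f → Prop} (h : ∀ α β, p (Dc.of f α + Dc.of f β * Dc.t f))
    (x : Dc f) : p x := by
  obtain ⟨α, β, rfl⟩ := dc_rep x
  exact h α β

/-- The derivation defined by a section of the dual numbers. -/
def secDer (ψ : B →ₐ[ℂ] TrivSqZeroExt B B) (h : ∀ x, (ψ x).fst = x) : Derivation ℂ B B :=
  Derivation.mk' (((sndHom B B).restrictScalars ℂ).comp ψ.toLinearMap) fun x y => by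
    change (ψ (x * y)).snd = x • (ψ y).snd + y • (ψ x).snd
    rw [map_mul, snd_mul, h, h, op_smul_eq_smul]

/-- The first order deformation of the structure map. -/
def dcPhi (f : A) (p : Derivation ℂ A A) : A →ₐ[ℂ] TrivSqZeroExt (Dc f) (Dc f) where
  toFun a := inl (Dc.of f a) + inr (Dc.t f * Dc.of f (p a))
  map_one' := by simp
  map_zero' := by simp
  map_add' a b := by
    refine TrivSqZeroExt.ext ?_ ?_ <;> simp [mul_add]
  map_mul' a b := by
    refine TrivSqZeroExt.ext ?_ ?_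
    · simp
    · simp
      ring
  commutes' c := by
    refine TrivSqZeroExt.ext ?_ ?_
    · simp [algebraMap_eq_inl']
    · simp [algebraMap_eq_inl']

/-- The first order deformation of the identity. -/
def dcPsi (f : A) (p : Derivation ℂ A A) : Dc f →ₐ[ℂ] TrivSqZeroExt (Dc f) (Dc f) :=
  Dc.lift f (dcPhi f p) (inl (Dc.t f) + inr ((2 : ℂ)⁻¹ • Dc.of f (p f))) (by
    change _ = inl (Dc.of f f) + inr (Dc.t f * Dc.of f (p f))
    rw [sq]
    refine TrivSqZeroExt.ext ?_ ?_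
    · simp [← Dc.t_sq, sq]
    · simp only [snd_mul, fst_add, fst_inl, fst_inr, snd_add, snd_inl, snd_inr, add_zero, zero_add,
        op_smul_eq_smul, smul_eq_mul, mul_smul_comm, ← add_smul]
      norm_num)

theorem dcPsi_fst (f : A) (p : Derivation ℂ A A) (x : Dc f) : (dcPsi f p x).fst = x := by
  have h : ((fstHom ℂ (Dc f) (Dc f)).comp (dcPsi f p)) = AlgHom.id ℂ _ :=
    Dc.ext (fun a => by
      rw [AlgHom.comp_apply, dcPsi, Dc.lift_of]
      exact add_zero _) (by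
      rw [AlgHom.comp_apply, dcPsi, Dc.lift_t]
      exact add_zero _)
  exact AlgHom.congr_fun h x

/-- The vector field `t p` on the double cover. -/
def dcD (f : A) (p : Derivation ℂ A A) : Derivation ℂ (Dc f) (Dc f) :=
  secDer (dcPsi f p) (dcPsi_fst f p)

theorem dcD_of (f : A) (p : Derivation ℂ A A) (a : A) :
    dcD f p (Dc.of f a) = Dc.t f * Dc.of f (p a) := by
  change (dcPsi f p (Dc.of f a)).snd = _
  rw [dcPsi, Dc.lift_of]
  exact zero_add _

theorem dcD_t (f : A) (p : Derivation ℂ A A) :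
    dcD f p (Dc.t f) = (2 : ℂ)⁻¹ • Dc.of f (p f) := by
  change (dcPsi f p (Dc.t f)).snd = _
  rw [dcPsi, Dc.lift_t]
  exact zero_add _

/-- The map of double covers with `t ↦ c t`. -/
def dcM {f : A} {g : B} (κ : A →ₐ[ℂ] B) (c : B) (h : κ f = c ^ 2 * g) : Dc f →ₐ[ℂ] Dc g :=
  Dc.lift f ((Dc.of g).comp κ) (Dc.of g c * Dc.t g) (by
    rw [mul_pow, Dc.t_sq, AlgHom.comp_apply, h, map_mul, map_pow])

theorem dcM_of {f : A} {g : B} (κ : A →ₐ[ℂ] B) (c : B) (h : κ f = c ^ 2 * g) (a : A) :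
    dcM κ c h (Dc.of f a) = Dc.of g (κ a) := Dc.lift_of _ _ _ _ a

theorem dcM_t {f : A} {g : B} (κ : A →ₐ[ℂ] B) (c : B) (h : κ f = c ^ 2 * g) :
    dcM κ c h (Dc.t f) = Dc.of g c * Dc.t g := Dc.lift_t _ _ _ _

/-- The involution `t ↦ -t`. -/
def dcW (f : A) : Dc f →ₐ[ℂ] Dc f := Dc.sg f (-1)

theorem dcW_of (f a : A) : dcW f (Dc.of f a) = Dc.of f a := Dc.sg_of _ _ a

theorem dcW_t (f : A) : dcW f (Dc.t f) = - Dc.t f := by
  rw [dcW, Dc.sg_t]
  simp

theorem dcW_W (f : A) (x : Dc f) : dcW f (dcW f x) = x := by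
  induction x using dc_ind with
  | h α β => simp only [map_add, map_mul, map_neg, dcW_of, dcW_t, neg_neg]

theorem dcW_D (f : A) (p : Derivation ℂ A A) (x : Dc f) :
    dcW f (dcD f p x) = - dcD f p (dcW f x) := by
  induction x using dc_ind with
  | h α β =>
    simp only [map_add, map_mul, map_neg, map_smul, Derivation.leibniz, smul_eq_mul, dcW_of, dcW_t,
      dcD_of, dcD_t]
    ring

theorem dcM_W {f : A} {g : B} (κ : A →ₐ[ℂ] B) (c : B) (h : κ f = c ^ 2 * g) (x : Dc f) :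
    dcM κ c h (dcW f x) = dcW g (dcM κ c h x) := by
  induction x using dc_ind with
  | h α β => simp only [map_add, map_mul, map_neg, dcW_of, dcW_t, dcM_of, dcM_t, mul_neg]

theorem dcM_D {f : A} {g : B} (κ : A →ₐ[ℂ] B) (c : B) (h : κ f = c ^ 2 * g) (hc : IsUnit c)
    (p : Derivation ℂ A A) (q : Derivation ℂ B B) (e : ∀ z, q (κ z) = c * κ (p z)) (x : Dc f) :
    dcM κ c h (dcD f p x) = dcD g q (dcM κ c h x) := by
  have h1 : κ (p f) = 2 * g * q c + c * q g := hc.mul_left_cancel (by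
    rw [← e, h, Derivation.leibniz, Derivation.leibniz_pow]
    simp only [smul_eq_mul, nsmul_eq_mul]
    push_cast
    ring)
  have h2 : algebraMap ℂ (Dc g) (2 : ℂ)⁻¹ * 2 = 1 := by
    rw [← map_ofNat (algebraMap ℂ (Dc g)) 2, ← map_mul]
    norm_num
  induction x using dc_ind with
  | h α β =>
    simp only [map_add, map_mul, Derivation.leibniz, smul_eq_mul, dcM_of, dcM_t,
      dcD_of, dcD_t, e, h1, map_ofNat, Algebra.smul_def, AlgHom.commutes]
    have h3 := Dc.t_sq g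
    linear_combination (Dc.of g (κ β) * Dc.of g g * Dc.of g (q c)) * h2 -
      (Dc.of g (κ β) * Dc.of g (q c)) * h3

theorem dcM_away {f : A} {g : B} (κ : A →ₐ[ℂ] B) (c : B) (h : κ f = c ^ 2 * g) (hc : IsUnit c)
    {s : A} (hs : IsAway κ s) : IsAway (dcM κ c h) (Dc.of f s) where
  unit := by
    rw [dcM_of]
    exact hs.unit.map _
  surj y := by
    obtain ⟨u, rfl⟩ := hc
    obtain ⟨α, β, rfl⟩ := dc_rep y
    obtain ⟨n, x, e⟩ := hs.surj α
    obtain ⟨m, x', e'⟩ := hs.surj (β * (u⁻¹ : Bˣ))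
    refine ⟨m + n, Dc.of f (s ^ m * x) + Dc.of f (s ^ n * x') * Dc.t f, ?_⟩
    have h1 := congrArg (Dc.of g) (Units.inv_mul u)
    simp only [map_add, map_mul, map_pow, map_one, dcM_of, dcM_t, ← e, ← e'] at h1 ⊢
    linear_combination (- Dc.of g (κ s) ^ (m + n) * Dc.of g β * Dc.t g) * h1
  ker x hx := by
    obtain ⟨α, β, rfl⟩ := dc_rep x
    rw [map_add, map_mul, dcM_of, dcM_of, dcM_t, ← mul_assoc, ← map_mul] at hx
    obtain ⟨h1, h2⟩ := dc_free hx
    obtain ⟨n, e⟩ := hs.ker α h1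
    obtain ⟨m, e'⟩ := hs.ker β (hc.mul_left_eq_zero.1 h2)
    have e1 := congrArg (Dc.of f) e
    have e2 := congrArg (Dc.of f) e'
    rw [map_mul, map_pow, map_zero] at e1 e2
    exact ⟨m + n, by linear_combination Dc.of f s ^ m * e1 + Dc.of f s ^ n * Dc.t f * e2⟩

/-- The logarithmic derivative. -/
def dlg (q : Derivation ℂ B B) {r : B} (h : IsUnit r) : B := ((h.unit⁻¹ : Bˣ) : B) * q r

theorem mul_dlg (q : Derivation ℂ B B) {r : B} (h : IsUnit r) : r * dlg q h = q r := by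
  rw [dlg, ← mul_assoc, h.mul_val_inv, one_mul]

theorem dlg_eq (q : Derivation ℂ B B) {r z : B} (h : IsUnit r) (e : r * z = q r) : dlg q h = z :=
  h.mul_left_cancel ((mul_dlg q h).trans e.symm)

end Dc

variable {I : Type} [SmallCategory I]

/-- Vector fields on the charts which are compatible up to the factors `c`. -/
structure VF (D : CD I) where
  pd : ∀ i, Derivation ℂ (D.C i) (D.C i)
  pd_κ : ∀ {i j : I} (α : i ⟶ j) (z : D.C i), pd j (D.κ α z) = D.c α * D.κ α (pd i z)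

variable {D : CD I} (V : VF D)

/-- The logarithmic derivative of the cocycle. -/
def VF.lr {i j : I} (α : i ⟶ j) : D.C j := dlg (V.pd j) (D.r_unit α)

theorem VF.mul_lr {i j : I} (α : i ⟶ j) : D.r α * V.lr α = V.pd j (D.r α) := mul_dlg _ _

theorem VF.lr_one {i j : I} (α : i ⟶ j) (h : D.r α = 1) : V.lr α = 0 :=
  dlg_eq _ _ (by rw [h, mul_zero, Derivation.map_one_eq_zero])

theorem VF.lr_comp {i j k : I} (α : i ⟶ j) (β : j ⟶ k) :
    V.lr (α ≫ β) = D.c β * D.κ β (V.lr α) + V.lr β :=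
  dlg_eq _ _ (by
    rw [D.r_comp, Derivation.leibniz, V.pd_κ, ← V.mul_lr α, ← V.mul_lr β, map_mul, smul_eq_mul,
      smul_eq_mul]
    ring)

/-- The diagram of double covers, with the twist `lam * dlog r`. -/
def VF.ud (lam : ℂ) : UDat I where
  R i := Dc (D.f i)
  tau α := dcM (D.κ α) (D.c α) (D.κ_f α)
  tau_id i r := by
    induction r using dc_ind with
    | h α β => simp only [map_add, map_mul, dcM_of, dcM_t, D.κ_id, D.c_id, map_one, one_mul]
  tau_comp a b r := by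
    induction r using dc_ind with
    | h α β => simp only [map_add, map_mul, dcM_of, dcM_t, D.κ_comp, D.c_comp, mul_assoc]
  dd i := dcD (D.f i) (V.pd i)
  tau_dd α r := dcM_D _ _ _ (D.c_unit α) _ _ (V.pd_κ α) r
  w i := dcW (D.f i)
  w_w i := dcW_W _
  tau_w α := dcM_W _ _ _
  w_dd i := dcW_D _ _
  eta {_ j} α := lam • (Dc.of (D.f j) (V.lr α) * Dc.t (D.f j))
  eta_id i := by rw [V.lr_one _ (D.r_id i), map_zero, zero_mul, smul_zero]
  eta_comp a b := by
    simp only [V.lr_comp, map_add, map_mul, map_smul, dcM_of, dcM_t, ← smul_add]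
    congr 1
    ring
  w_eta α := by rw [map_smul, map_mul, dcW_of, dcW_t, mul_neg, smul_neg]
  C := D.C
  κ := D.κ
  ι i := Dc.of (D.f i)
  tau_ι α z := dcM_of _ _ _ z

end

end Vale.Agent.P286EU
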